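import Claimed.Agent.R322.Pack015

/-!
# Row 322, Fit/Pde: real coefficients, `E n`-valued maps, scale `ℓ` : definitions   (architect helper281)

* `Coef m n` : real coefficients `Y^{ab}`, `B^e_{αγ}`;  `c.op w = Δ w + Y^{ab} ∂_ab w + (B^e_{αγ} ∂_e w^γ)_α : E m → E n`.
* `c.toC` : the complexified coefficients (`CCoef`);  `c.Reg r` : all coefficients are in `A^r`.
* `c.sizel r ℓ = ∑ nAl r ℓ Y + ℓ ∑ nAl r ℓ B` (dimensionless).
* `c.zoom x ℓ = (Zm x ℓ Y, ℓ Zm x ℓ B)`;  `(c.zoom x ℓ).op (Zm x ℓ w) = ℓ² Zm x ℓ (c.op w)`.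
* `c.pert w = c.op w - Δ w`;  `c.sub c'` : difference of the coefficients;  `reV v` : the real parts of a complex system.

PLANS.
* `cxv_op`: apply the continuous linear map `Boot.cxL n α` to the three sums; `Boot.pdv_cxv`, `Boot.pdv_pdv_cxv`, `cxv_pdv`;
  `(EuclideanSpace.single α' 1) α = if α = α' then 1 else 0` and `Finset.sum_ite_eq`.
* `op_zoom`: `pdv_Zm` twice (`pdv a (pdv b (Zm x ℓ w)) z = ℓ² pdv a (pdv b w) (x + ℓ z)`), then `Finset.smul_sum`, `smul_smul`, `ring`.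
* `size_zoom`: `cx (Zm x ℓ Y) = Zm x ℓ (cx Y)` (rfl), `nA_Zm`; `cx (ℓ Zm B) = (ℓ : ℂ) * Zm x ℓ (cx B)`, `nA_const_mul`, `Finset.mul_sum`.
* `pert_bound`: componentwise; `cxv (c.pert w) α = ∑ cx Y_ab ∂_a∂_b w_α + ∑ cx B_eαγ ∂_e w_γ`; `nAl_sum_le`, `nAl_mul_le`, `nAl_pdv_le`;
  every `nAl r ℓ (∂_b w_α)`, `nAl (r+1) ℓ (∂_b w_α)` is `≤ sAl (r+1) ℓ w` (`Finset.single_le_sum`); `1 ≤ 2π`.
* `toC_op_re`: `pdv a (cx (re ∘ f)) = cx (re ∘ pdv a f)` (compose with the continuous linear map `Complex.ofRealCLM ∘L Complex.reCLM`),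
  the coefficients are real: `(↑t * z).re = t * z.re`.
-/

set_option autoImplicit false

open scoped ENNReal ContDiff Topology FourierTransform RealInnerProductSpace
open MeasureTheory

namespace Claimed.Agent.R322.Fit

variable {m n : ℕ}

/-! ### partial derivatives of maps with values in a normed space -/

section gen

variable {F : Type*} [NormedAddCommGroup F] [NormedSpace ℝ F]

theorem gpdv_congr {f g : E m → F} {x : E m} (h : f =ᶠ[𝓝 x] g) (a : Fin m) :
    pdv a f x = pdv a g x := by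
  unfold pdv
  rw [h.fderiv_eq]

theorem gpdv_eventuallyEq {f g : E m → F} {x : E m} (h : f =ᶠ[𝓝 x] g) (a : Fin m) :
    pdv a f =ᶠ[𝓝 x] pdv a g := by
  filter_upwards [h.eventuallyEq_nhds] with z hz using gpdv_congr hz a

theorem gcontDiff_pdv {f : E m → F} {k : ℕ} (hf : ContDiff ℝ (k + 1 : ℕ) f) (a : Fin m) :
    ContDiff ℝ k (pdv a f) := by
  unfold pdv
  exact (hf.fderiv_right (m := k) (by norm_cast)).clm_apply contDiff_const

theorem gpdv_add {f g : E m → F} (hf : Differentiable ℝ f) (hg : Differentiable ℝ g) (a : Fin m) :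
    pdv a (fun y => f y + g y) = fun y => pdv a f y + pdv a g y := by
  funext y
  unfold pdv
  rw [fderiv_fun_add (hf y) (hg y)]
  rfl

theorem gpdv_sub {f g : E m → F} (hf : Differentiable ℝ f) (hg : Differentiable ℝ g) (a : Fin m) :
    pdv a (fun y => f y - g y) = fun y => pdv a f y - pdv a g y := by
  funext y
  unfold pdv
  rw [fderiv_fun_sub (hf y) (hg y)]
  rfl

theorem gpdv_const_smul (t : ℝ) {f : E m → F} (hf : Differentiable ℝ f) (a : Fin m) :
    pdv a (fun y => t • f y) = fun y => t • pdv a f y := by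
  funext y
  unfold pdv
  rw [fderiv_fun_const_smul (hf y)]
  rfl

theorem gpdv_clm {G : Type*} [NormedAddCommGroup G] [NormedSpace ℝ G] (L : F →L[ℝ] G)
    {f : E m → F} (hf : Differentiable ℝ f) (a : Fin m) :
    pdv a (fun y => L (f y)) = fun y => L (pdv a f y) := by
  funext y
  unfold pdv
  have h : HasFDerivAt (fun y => L (f y)) (L ∘L fderiv ℝ f y) y :=
    L.hasFDerivAt.comp y (hf y).hasFDerivAt
  rw [h.fderiv]
  rfl

theorem gdiff_of_two {f : E m → F} (hf : ContDiff ℝ 2 f) : Differentiable ℝ f :=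
  hf.differentiable (by norm_num)

theorem gdiff_pdv {f : E m → F} (hf : ContDiff ℝ 2 f) (a : Fin m) : Differentiable ℝ (pdv a f) :=
  (gcontDiff_pdv (k := 1) hf a).differentiable (by norm_num)

end gen

/-- real coefficients of the perturbation. -/
structure Coef (m n : ℕ) where
  Y : Fin m → Fin m → E m → ℝ
  B : Fin m → Fin n → Fin n → E m → ℝ

namespace Coef

/-- the operator `Δ + Y ∂² + B ∂` on `E n`-valued maps. -/
noncomputable def op (c : Coef m n) (w : E m → E n) (y : E m) : E n :=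
  ∑ a, pdv a (pdv a w) y + ∑ a, ∑ b, c.Y a b y • pdv a (pdv b w) y
    + ∑ e, ∑ α, ∑ γ, (c.B e α γ y * pdv e w y γ) • (EuclideanSpace.single α (1 : ℝ) : E n)

/-- complexification. -/
def toC (c : Coef m n) : CCoef m n :=
  ⟨fun a b => cx (c.Y a b), fun e α γ => cx (c.B e α γ)⟩

/-- the coefficients belong to `A^r`. -/
def Reg (c : Coef m n) (r : ℕ) : Prop := c.toC.Reg r

/-- the dimensionless size of the coefficients at scale `ℓ`. -/
noncomputable def sizel (c : Coef m n) (r : ℕ) (ℓ : ℝ) : ℝ≥0∞ :=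
  ∑ a, ∑ b, nAl r ℓ (cx (c.Y a b))
    + ENNReal.ofReal ℓ * ∑ e, ∑ α, ∑ γ, nAl r ℓ (cx (c.B e α γ))

/-- the coefficients in the zoomed variables. -/
def zoom (c : Coef m n) (x : E m) (ℓ : ℝ) : Coef m n :=
  ⟨fun a b => Zm x ℓ (c.Y a b), fun e α γ z => ℓ * c.B e α γ (x + ℓ • z)⟩

/-- the perturbation part `Y ∂² + B ∂`. -/
noncomputable def pert (c : Coef m n) (w : E m → E n) (y : E m) : E n :=
  ∑ a, ∑ b, c.Y a b y • pdv a (pdv b w) y
    + ∑ e, ∑ α, ∑ γ, (c.B e α γ y * pdv e w y γ) • (EuclideanSpace.single α (1 : ℝ) : E n)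

/-- difference of two sets of coefficients. -/
def sub (c c' : Coef m n) : Coef m n :=
  ⟨fun a b y => c.Y a b y - c'.Y a b y, fun e α γ y => c.B e α γ y - c'.B e α γ y⟩

theorem op_eq (c : Coef m n) (w : E m → E n) (y : E m) :
    c.op w y = ∑ a, pdv a (pdv a w) y + c.pert w y := by
  unfold op pert
  rw [add_assoc]

theorem op_sub_op (c c' : Coef m n) (w : E m → E n) (y : E m) :
    c.op w y - c'.op w y = (c.sub c').pert w y := by
  rw [op_eq, op_eq, add_sub_add_left_eq_sub]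
  unfold pert sub
  simp only [sub_smul, sub_mul, Finset.sum_sub_distrib]
  abel

/-! ### leaf L-Fit-Real-A : components, locality, linearity -/

/-- the components of `c.op w` are given by the complex operator. -/
theorem cxv_op (c : Coef m n) {w : E m → E n} (hw : ContDiff ℝ 2 w) (α : Fin n) (y : E m) :
    Boot.cxv (c.op w) α y = c.toC.op (Boot.cxv w) α y := by
  have h1 : ContDiff ℝ 1 w := hw.of_le (by norm_num)
  have h2 : ∀ b, ContDiff ℝ 1 (pdv b w) := fun b => gcontDiff_pdv (k := 1) hw b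
  unfold CCoef.op
  simp only [← cxv_pdv h1, ← cxv_pdv (h2 _)]
  simp only [Boot.cxv, op, toC, cx, PiLp.add_apply, PiLp.smul_apply, smul_eq_mul,
    WithLp.ofLp_sum, Finset.sum_apply, Complex.ofReal_add, Complex.ofReal_sum, Complex.ofReal_mul,
    PiLp.single_apply]
  congr 1
  refine Finset.sum_congr rfl fun e _ => ?_
  rw [Finset.sum_eq_single α]
  · simp
  · intro b _ hb
    simp [Ne.symm hb]
  · simp

/-- the operator is local. -/
theorem op_congr (c : Coef m n) {w w' : E m → E n} {y : E m} (h : w =ᶠ[𝓝 y] w') :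
    c.op w y = c.op w' y := by
  unfold op
  have h1 : ∀ e, pdv e w y = pdv e w' y := fun e => gpdv_congr h e
  have h2 : ∀ a b, pdv a (pdv b w) y = pdv a (pdv b w') y := fun a b =>
    gpdv_congr (gpdv_eventuallyEq h b) a
  simp only [h1, h2]

theorem op_add (c : Coef m n) {w w' : E m → E n} (hw : ContDiff ℝ 2 w) (hw' : ContDiff ℝ 2 w')
    (y : E m) : c.op (fun y => w y + w' y) y = c.op w y + c.op w' y := by
  unfold op
  simp only [gpdv_add (gdiff_of_two hw) (gdiff_of_two hw')]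
  simp only [gpdv_add (gdiff_pdv hw _) (gdiff_pdv hw' _)]
  simp only [smul_add, PiLp.add_apply, mul_add, add_smul, Finset.sum_add_distrib]
  abel

theorem op_sub (c : Coef m n) {w w' : E m → E n} (hw : ContDiff ℝ 2 w) (hw' : ContDiff ℝ 2 w')
    (y : E m) : c.op (fun y => w y - w' y) y = c.op w y - c.op w' y := by
  unfold op
  simp only [gpdv_sub (gdiff_of_two hw) (gdiff_of_two hw')]
  simp only [gpdv_sub (gdiff_pdv hw _) (gdiff_pdv hw' _)]
  simp only [smul_sub, PiLp.sub_apply, mul_sub, sub_smul, Finset.sum_sub_distrib]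
  abel

theorem op_const_smul (c : Coef m n) (t : ℝ) {w : E m → E n} (hw : ContDiff ℝ 2 w) (y : E m) :
    c.op (fun y => t • w y) y = t • c.op w y := by
  unfold op
  simp only [gpdv_const_smul t (gdiff_of_two hw)]
  simp only [gpdv_const_smul t (gdiff_pdv hw _)]
  simp only [smul_add, Finset.smul_sum, PiLp.smul_apply, smul_eq_mul, smul_smul]
  congr 1
  · congr 1
    refine Finset.sum_congr rfl fun a _ => Finset.sum_congr rfl fun b _ => ?_
    rw [mul_comm]
  · refine Finset.sum_congr rfl fun a _ => Finset.sum_congr rfl fun b _ =>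
      Finset.sum_congr rfl fun γ _ => ?_
    congr 1
    ring

/-! ### leaf L-Fit-Real-B : zoom -/

theorem op_zoom (c : Coef m n) (x : E m) (ℓ : ℝ) {w : E m → E n} (hw : ContDiff ℝ 2 w) (z : E m) :
    (c.zoom x ℓ).op (Zm x ℓ w) z = ℓ ^ 2 • c.op w (x + ℓ • z) := by
  have h1 : ∀ a, pdv a (Zm x ℓ w) = fun z => ℓ • Zm x ℓ (pdv a w) z := fun a =>
    pdv_Zm x ℓ (gdiff_of_two hw) a
  have h2 : ∀ a b, pdv a (pdv b (Zm x ℓ w)) = fun z => ℓ • ℓ • Zm x ℓ (pdv a (pdv b w)) z := by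
    intro a b
    rw [h1, gpdv_const_smul ℓ ((contDiff_Zm x ℓ (gcontDiff_pdv (k := 1) hw b)).differentiable
      (by norm_num)), pdv_Zm x ℓ (gdiff_pdv hw b) a]
    rfl
  unfold op
  simp only [h2]
  simp only [h1, zoom, Zm]
  simp only [smul_add, Finset.smul_sum, PiLp.smul_apply, smul_eq_mul, smul_smul]
  congr 1
  · congr 1
    · refine Finset.sum_congr rfl fun a _ => ?_
      rw [sq]
    · refine Finset.sum_congr rfl fun a _ => Finset.sum_congr rfl fun b _ => ?_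
      congr 1
      ring
  · refine Finset.sum_congr rfl fun a _ => Finset.sum_congr rfl fun b _ =>
      Finset.sum_congr rfl fun γ _ => ?_
    congr 1
    ring

theorem cx_zoom_B (c : Coef m n) (x : E m) (ℓ : ℝ) (e : Fin m) (α γ : Fin n) :
    cx ((c.zoom x ℓ).B e α γ) = fun z => (ℓ : ℂ) * Zm x ℓ (cx (c.B e α γ)) z := by
  funext z
  simp [cx, zoom, Zm]

theorem size_zoom (c : Coef m n) (r : ℕ) (x : E m) {ℓ : ℝ} (hℓ : 0 < ℓ) :
    (c.zoom x ℓ).toC.size r = c.sizel r ℓ := by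
  unfold CCoef.size sizel
  congr 1
  · refine Finset.sum_congr rfl fun a _ => Finset.sum_congr rfl fun b _ => ?_
    exact nA_Zm r x hℓ (cx (c.Y a b))
  · simp only [Finset.mul_sum]
    refine Finset.sum_congr rfl fun a _ => Finset.sum_congr rfl fun b _ =>
      Finset.sum_congr rfl fun γ _ => ?_
    show nA r (cx ((c.zoom x ℓ).B a b γ)) = _
    rw [cx_zoom_B, nA_const_mul, nA_Zm r x hℓ, ← ofReal_norm, Complex.norm_real, Real.norm_eq_abs,
      abs_of_pos hℓ]

theorem Reg.zoom {c : Coef m n} {r : ℕ} (hc : c.Reg r) (x : E m) {ℓ : ℝ} (hℓ : 0 < ℓ) :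
    (c.zoom x ℓ).Reg r := by
  refine ⟨fun a b => (hc.Y a b).Zm x hℓ, fun e α γ => ?_⟩
  show InA r (cx ((c.zoom x ℓ).B e α γ))
  rw [cx_zoom_B]
  exact ((hc.B e α γ).Zm x hℓ).const_mul _

/-! ### leaf L-Fit-Real-C : bounds -/

theorem Reg.mono {c : Coef m n} {r r' : ℕ} (hc : c.Reg r') (h : r ≤ r') : c.Reg r :=
  CCoef.Reg.mono hc h

theorem sizel_mono (c : Coef m n) {r r' : ℕ} (h : r ≤ r') {ℓ : ℝ} (hℓ : 0 ≤ ℓ) :
    c.sizel r ℓ ≤ c.sizel r' ℓ := by
  unfold sizel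
  refine add_le_add ?_ (mul_le_mul' le_rfl ?_)
  · exact Finset.sum_le_sum fun a _ => Finset.sum_le_sum fun b _ => nAl_mono h hℓ _
  · exact Finset.sum_le_sum fun e _ => Finset.sum_le_sum fun α _ => Finset.sum_le_sum fun γ _ =>
      nAl_mono h hℓ _

theorem cxv_pert (c : Coef m n) (w : E m → E n) (α : Fin n) :
    Boot.cxv (c.pert w) α = fun y =>
      (∑ a, ∑ b, cx (c.Y a b) y * Boot.cxv (pdv a (pdv b w)) α y)
        + ∑ e, ∑ γ, cx (c.B e α γ) y * Boot.cxv (pdv e w) γ y := by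
  funext y
  simp only [Boot.cxv, pert, cx, PiLp.add_apply, PiLp.smul_apply, smul_eq_mul,
    WithLp.ofLp_sum, Finset.sum_apply, Complex.ofReal_add, Complex.ofReal_sum, Complex.ofReal_mul,
    PiLp.single_apply]
  congr 1
  refine Finset.sum_congr rfl fun e _ => ?_
  rw [Finset.sum_eq_single α]
  · simp
  · intro b _ hb
    simp [Ne.symm hb]
  · simp

/-- the perturbation part is bounded by the size of the coefficients times the slope norm. -/
theorem pert_bound (c : Coef m n) (r : ℕ) {ℓ : ℝ} (hℓ : 0 < ℓ) (hc : c.Reg r) {w : E m → E n}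
    (hw : VIn (r + 2) w) :
    VIn r (c.pert w) ∧
      ENNReal.ofReal ℓ * vAl r ℓ (c.pert w)
        ≤ ENNReal.ofReal (2 * Real.pi) * (c.sizel r ℓ * sAl (r + 1) ℓ w) := by
  have hY : ∀ a b, InA r (cx (c.Y a b)) := hc.Y
  have hB : ∀ e α γ, InA r (cx (c.B e α γ)) := hc.B
  have h1 : ∀ e, VIn (r + 1) (pdv e w) := fun e => VIn.pdv (r := r + 1) hw e
  have h2 : ∀ a b, VIn r (pdv a (pdv b w)) := fun a b => (h1 b).pdv a
  have hT1 : ∀ α a b, InA r (fun y => cx (c.Y a b) y * Boot.cxv (pdv a (pdv b w)) α y) :=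
    fun α a b => (hY a b).mul (h2 a b α)
  have hT2 : ∀ α e γ, InA r (fun y => cx (c.B e α γ) y * Boot.cxv (pdv e w) γ y) :=
    fun α e γ => (hB e α γ).mul (((h1 e).mono (Nat.le_succ r)) γ)
  have hS1 : ∀ α a, InA r (fun y => ∑ b, cx (c.Y a b) y * Boot.cxv (pdv a (pdv b w)) α y) :=
    fun α a => InA.sum _ fun b _ => hT1 α a b
  have hS2 : ∀ α e, InA r (fun y => ∑ γ, cx (c.B e α γ) y * Boot.cxv (pdv e w) γ y) :=
    fun α e => InA.sum _ fun γ _ => hT2 α e γ
  have hU1 : ∀ α, InA r (fun y => ∑ a, ∑ b, cx (c.Y a b) y * Boot.cxv (pdv a (pdv b w)) α y) :=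
    fun α => InA.sum _ fun a _ => hS1 α a
  have hU2 : ∀ α, InA r (fun y => ∑ e, ∑ γ, cx (c.B e α γ) y * Boot.cxv (pdv e w) γ y) :=
    fun α => InA.sum _ fun e _ => hS2 α e
  refine ⟨fun α => ?_, ?_⟩
  · rw [cxv_pert]
    exact (hU1 α).add (hU2 α)
  obtain ⟨s, hs⟩ : ∃ s, s = sAl (r + 1) ℓ w := ⟨_, rfl⟩
  have hz : ∀ {f : E m → ℂ}, InA r f → InA 0 f := fun h => h.mono (Nat.zero_le r)
  have hsB : ∀ e γ, nAl r ℓ (Boot.cxv (pdv e w) γ) ≤ s := fun e γ => by
    calc nAl r ℓ (Boot.cxv (pdv e w) γ) ≤ vAl r ℓ (pdv e w) :=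
          Finset.single_le_sum (f := fun γ => nAl r ℓ (Boot.cxv (pdv e w) γ))
            (fun _ _ => bot_le) (Finset.mem_univ γ)
      _ ≤ sAl r ℓ w :=
          Finset.single_le_sum (f := fun e => vAl r ℓ (pdv e w))
            (fun _ _ => bot_le) (Finset.mem_univ e)
      _ ≤ s := hs ▸ sAl_mono (Nat.le_succ r) hℓ.le w
  have key : ∀ α, nAl r ℓ (Boot.cxv (c.pert w) α)
      ≤ (∑ a, ∑ b, nAl r ℓ (cx (c.Y a b)) * nAl r ℓ (Boot.cxv (pdv a (pdv b w)) α))
        + ∑ e, ∑ γ, nAl r ℓ (cx (c.B e α γ)) * s := by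
    intro α
    rw [cxv_pert]
    refine (nAl_add_le r ℓ (hU1 α).integrable (hU2 α).integrable).trans (add_le_add ?_ ?_)
    · refine (nAl_sum_le r ℓ _ fun a _ => (hS1 α a).integrable).trans
        (Finset.sum_le_sum fun a _ => ?_)
      refine (nAl_sum_le r ℓ _ fun b _ => (hT1 α a b).integrable).trans
        (Finset.sum_le_sum fun b _ => ?_)
      exact nAl_mul_le r hℓ (hz (hY a b)) (hz (h2 a b α))
    · refine (nAl_sum_le r ℓ _ fun e _ => (hS2 α e).integrable).trans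
        (Finset.sum_le_sum fun e _ => ?_)
      refine (nAl_sum_le r ℓ _ fun γ _ => (hT2 α e γ).integrable).trans
        (Finset.sum_le_sum fun γ _ => ?_)
      exact (nAl_mul_le r hℓ (hz (hB e α γ)) (hz (((h1 e).mono (Nat.le_succ r)) γ))).trans
        (mul_le_mul' le_rfl (hsB e γ))
  have hA : ENNReal.ofReal ℓ *
      ∑ α, ∑ a, ∑ b, nAl r ℓ (cx (c.Y a b)) * nAl r ℓ (Boot.cxv (pdv a (pdv b w)) α)
      ≤ ENNReal.ofReal (2 * Real.pi) * ((∑ a, ∑ b, nAl r ℓ (cx (c.Y a b))) * s) := by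
    have e1 : ∑ α, ∑ a, ∑ b, nAl r ℓ (cx (c.Y a b)) * nAl r ℓ (Boot.cxv (pdv a (pdv b w)) α)
        = ∑ a, ∑ b, nAl r ℓ (cx (c.Y a b)) * vAl r ℓ (pdv a (pdv b w)) := by
      rw [Finset.sum_comm]
      refine Finset.sum_congr rfl fun a _ => ?_
      rw [Finset.sum_comm]
      refine Finset.sum_congr rfl fun b _ => ?_
      rw [← Finset.mul_sum]
      rfl
    rw [e1]
    simp only [Finset.mul_sum, Finset.sum_mul]
    refine Finset.sum_le_sum fun a _ => Finset.sum_le_sum fun b _ => ?_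
    have h3 := vAl_pdv_pdv_le r hℓ (hw.mono (Nat.le_add_left 2 r)) a b
    have h4 : vAl (r + 1) ℓ (pdv b w) ≤ s := hs ▸
      Finset.single_le_sum (f := fun e => vAl (r + 1) ℓ (pdv e w))
        (fun _ _ => bot_le) (Finset.mem_univ b)
    calc ENNReal.ofReal ℓ * (nAl r ℓ (cx (c.Y a b)) * vAl r ℓ (pdv a (pdv b w)))
        = nAl r ℓ (cx (c.Y a b)) * (ENNReal.ofReal ℓ * vAl r ℓ (pdv a (pdv b w))) := by ring
      _ ≤ nAl r ℓ (cx (c.Y a b)) * (ENNReal.ofReal (2 * Real.pi) * s) :=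
          mul_le_mul' le_rfl (h3.trans (mul_le_mul' le_rfl h4))
      _ = _ := by ring
  have hBb : ENNReal.ofReal ℓ * ∑ α, ∑ e, ∑ γ, nAl r ℓ (cx (c.B e α γ)) * s
      ≤ ENNReal.ofReal (2 * Real.pi)
        * ((ENNReal.ofReal ℓ * ∑ e, ∑ α, ∑ γ, nAl r ℓ (cx (c.B e α γ))) * s) := by
    have e1 : ∑ α, ∑ e, ∑ γ, nAl r ℓ (cx (c.B e α γ)) * s
        = (∑ e, ∑ α, ∑ γ, nAl r ℓ (cx (c.B e α γ))) * s := by
      rw [Finset.sum_comm]
      simp only [Finset.sum_mul]
    rw [e1, ← mul_assoc]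
    have h1' : (1 : ℝ≥0∞) ≤ ENNReal.ofReal (2 * Real.pi) := by
      rw [← ENNReal.ofReal_one]
      exact ENNReal.ofReal_le_ofReal (by linarith [Real.pi_gt_three])
    calc _ = 1 * ((ENNReal.ofReal ℓ * ∑ e, ∑ α, ∑ γ, nAl r ℓ (cx (c.B e α γ))) * s) := by
          rw [one_mul]
      _ ≤ _ := mul_le_mul' h1' le_rfl
  rw [← hs]
  calc ENNReal.ofReal ℓ * vAl r ℓ (c.pert w)
      ≤ ENNReal.ofReal ℓ * ∑ α,
          ((∑ a, ∑ b, nAl r ℓ (cx (c.Y a b)) * nAl r ℓ (Boot.cxv (pdv a (pdv b w)) α))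
            + ∑ e, ∑ γ, nAl r ℓ (cx (c.B e α γ)) * s) :=
        mul_le_mul' le_rfl (Finset.sum_le_sum fun α _ => key α)
    _ = ENNReal.ofReal ℓ *
          ∑ α, ∑ a, ∑ b, nAl r ℓ (cx (c.Y a b)) * nAl r ℓ (Boot.cxv (pdv a (pdv b w)) α)
        + ENNReal.ofReal ℓ * ∑ α, ∑ e, ∑ γ, nAl r ℓ (cx (c.B e α γ)) * s := by
        rw [Finset.sum_add_distrib, mul_add]
    _ ≤ _ := add_le_add hA hBb
    _ = ENNReal.ofReal (2 * Real.pi) * (c.sizel r ℓ * s) := by
        unfold sizel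
        ring

theorem VIn_op (c : Coef m n) (r : ℕ) (hc : c.Reg r) {w : E m → E n} (hw : VIn (r + 2) w) :
    VIn r (c.op w) := by
  have e : c.op w = fun y => (∑ a, pdv a (pdv a w) y) + c.pert w y := funext fun y => c.op_eq w y
  rw [e]
  exact (VIn.sum _ fun a _ => (VIn.pdv (r := r + 1) hw a).pdv a).add
    (pert_bound c r one_pos hc hw).1

end Coef

/-! ### leaf L-Fit-Real-D : real parts -/

/-- the real parts of a complex system, as an `E n`-valued map. -/
noncomputable def reV (v : Fin n → E m → ℂ) (y : E m) : E n := WithLp.toLp 2 fun α => (v α y).re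

theorem cxv_reV (v : Fin n → E m → ℂ) (α : Fin n) :
    Boot.cxv (reV v) α = cx fun y => (v α y).re := rfl

theorem reV_cxv (w : E m → E n) : reV (Boot.cxv w) = w := by
  funext y
  ext α
  simp [reV, Boot.cxv]

theorem VIn_reV {r : ℕ} {v : Fin n → E m → ℂ} (h : ∀ α, InA r (v α)) : VIn r (reV v) :=
  fun α => (h α).re

theorem vAl_reV_le (r : ℕ) {v : Fin n → E m → ℂ} (h : ∀ α, InA 0 (v α)) :
    vAl r 1 (reV v) ≤ ∑ α, nA r (v α) := by
  unfold vAl
  refine Finset.sum_le_sum fun α _ => ?_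
  rw [nAl_one, cxv_reV]
  exact nA_re_le r (h α)

/-- `z ↦ (z.re : ℂ)`. -/
noncomputable def reK : ℂ →L[ℝ] ℂ := Complex.ofRealCLM ∘L Complex.reCLM

theorem reK_apply (z : ℂ) : reK z = (z.re : ℂ) := rfl

/-- real coefficients: the operator commutes with taking real parts. -/
theorem Coef.toC_op_re (c : Coef m n) {v : Fin n → E m → ℂ} (hv : ∀ α, ContDiff ℝ 2 (v α))
    (α : Fin n) (y : E m) :
    c.toC.op (Boot.cxv (reV v)) α y = ((c.toC.op v α y).re : ℂ) := by
  have e0 : ∀ γ, Boot.cxv (reV v) γ = fun y => reK (v γ y) := fun γ => rfl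
  have h1 : ∀ γ a, pdv a (Boot.cxv (reV v) γ) = fun y => reK (pdv a (v γ) y) := fun γ a => by
    rw [e0, gpdv_clm reK (gdiff_of_two (hv γ))]
  have h2 : ∀ γ a b, pdv a (pdv b (Boot.cxv (reV v) γ)) = fun y => reK (pdv a (pdv b (v γ)) y) :=
    fun γ a b => by
      rw [h1, gpdv_clm reK (gdiff_pdv (hv γ) b)]
  unfold CCoef.op
  simp only [h2]
  simp only [h1, reK_apply, Coef.toC, cx, Complex.add_re, Complex.re_sum, Complex.re_ofReal_mul,
    Complex.ofReal_add, Complex.ofReal_sum, Complex.ofReal_mul]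

theorem tsupport_reV_subset {v : Fin n → E m → ℂ} {O : Set (E m)} (h : ∀ α, tsupport (v α) ⊆ O) :
    tsupport (reV v) ⊆ O := by
  have h1 : Function.support (reV v) ⊆ ⋃ α, Function.support (v α) := by
    intro y hy
    by_contra hcon
    apply hy
    ext α
    have : v α y = 0 := by
      by_contra h3
      exact hcon (Set.mem_iUnion.2 ⟨α, h3⟩)
    simp [reV, this]
  refine (closure_mono h1).trans ?_
  rw [closure_iUnion_of_finite]
  exact Set.iUnion_subset h

end Claimed.Agent.R322.Fit
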