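import Claimed.Agent.R322.Fit.Pde.Real

/-!
# Row 322, Fit/Pde: the formal adjoint of `Coef.op`; tests in the Wiener scale; weak bounds for `C^N` tests   (architect helper281)

* `c.adj ζ = Δ ζ + ∂_b ∂_a (Y^{ab} ζ) - ∂_e (B^eᵀ ζ)`;  `∫ ⟪c.op φ, ζ⟫ = ∫ ⟪φ, c.adj ζ⟫`  (`integral_op_inner`).
* `adj_bound` : `ℓ² vAl r ℓ (c.adj ζ) ≤ (2π)² (m + sizel (r+2)) vAl (r+2) ℓ ζ`;  `adj_lip` : the resulting Lipschitz bound.
* `exists_vAl_test_le` : tests of order `r + m + 1` at scale `ℓ` are bounded in `A^r` at scale `ℓ`.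
* `WeakV.of_contDiff` : a weak bound (defined with smooth tests) holds for tests of class `C^N`.

PLANS.
* `integral_inner_pdv`: `integral_bilinear_fderiv_right_eq_neg_left_of_integrable` (Mathlib, `Analysis/Calculus/LineDeriv/IntegrationByParts`) with the bilinear
  map `innerSL ℝ`; all three integrands are continuous with compact support (`HasCompactSupport.fderiv`, `.mul_right`-type lemmas).
* `integral_op_inner`: expand `⟪c.op φ, ζ⟫` (`inner_add_left`, `sum_inner`, `inner_smul_left`), integrate termwise (`integral_add`, `integral_finset_sum`; every term is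
  continuous with compact support because `φ` has compact support).  `Δ`: `integral_inner_pdv` twice.  `Y`: `Y_ab ⟪∂_a ∂_b φ, ζ⟫ = ⟪∂_a (∂_b φ), Y_ab ζ⟫`, twice.
  `B`: `∑_{α γ} B_eαγ (∂_e φ)_γ ζ_α = ⟪∂_e φ, c.Bt e ζ⟫` (`inner_eq_sum`-type expansion), once.  Regularity of the coefficients: `InA.contDiff`, `contDiff_of_cx`.
* `adj_bound`: componentwise, `cxv (c.adj ζ) γ = ∑_a ∂_a∂_a ζ_γ + ∑_{ab} ∂_b∂_a (cx Y_ab ζ_γ) - ∑_e ∂_e (∑_α cx B_eαγ ζ_α)` (`cxv_pdv`, `cxv_smul`, `cxv_sum`), then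
  `nAl_pdv_le` (twice), `nAl_mul_le`, `nAl_sum_le`, `nAl_mono`.
* `adj_lip`: `norm_fderiv_le_sAl`, `sAl_le_vAl`, `adj_bound` with `r = 1`, mean value inequality (`Convex.norm_image_sub_le_of_norm_fderiv_le` on `univ`).
* `exists_vAl_test_le`: `VIn.of_smooth`; `vAl r ℓ ζ = ∑ nA r (Zm x ℓ (cxv ζ α))` (`nA_Zm`), `exists_nA_le`; `|D^j (Zm x ℓ (cxv ζ α))| ≤ ℓ^j |D^j ζ| ≤ A`
  (`norm_iteratedFDeriv_Zm`, composition with `Boot.cxL`, norm `≤ 1`), support in `ball 0 R`: each integral is `≤ vol (ball 0 R) A`.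
* `WeakV.of_contDiff`: `ζ_ε = ρ_ε ⋆ ζ` (`ContDiffBump.normed`, `HasCompactSupport.contDiff_convolution_left`); `D^j ζ_ε = ρ_ε ⋆ D^j ζ`, so `|D^j ζ_ε| ≤ sup |D^j ζ|`;
  `tsupport ζ_ε ⊆ O` for small `ε` (`IsCompact.exists_cthickening_subset_open`); `ζ_ε → ζ` uniformly (`ContDiffBump.convolution_tendsto_right`, uniform continuity), all supports in one compact set,
  so `∫ ⟪w, ζ_ε⟫ → ∫ ⟪w, ζ⟫`; `le_of_tendsto`.
-/

set_option autoImplicit false

open scoped ENNReal ContDiff Topology FourierTransform RealInnerProductSpace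
open MeasureTheory

namespace Claimed.Agent.R322.Fit

variable {m n : ℕ}

namespace Coef

/-- `B^eᵀ ζ = (∑_α B^e_{αγ} ζ_α)_γ`. -/
noncomputable def Bt (c : Coef m n) (e : Fin m) (ζ : E m → E n) (y : E m) : E n :=
  ∑ γ, (∑ α, c.B e α γ y * ζ y α) • (EuclideanSpace.single γ (1 : ℝ) : E n)

/-- the formal adjoint of `c.op`. -/
noncomputable def adj (c : Coef m n) (ζ : E m → E n) (y : E m) : E n :=
  ∑ a, pdv a (pdv a ζ) y + ∑ a, ∑ b, pdv b (pdv a (fun y => c.Y a b y • ζ y)) y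
    - ∑ e, pdv e (c.Bt e ζ) y

end Coef

/-! ### tools : calculus of `pdv` for maps with values in a normed space -/

section tools

variable {F : Type*} [NormedAddCommGroup F] [NormedSpace ℝ F]

theorem adj_contDiff_pdv {f : E m → F} {k : ℕ} (hf : ContDiff ℝ (k + 1 : ℕ) f) (a : Fin m) :
    ContDiff ℝ k (pdv a f) := by
  unfold pdv
  exact (hf.fderiv_right (m := k) (by norm_cast)).clm_apply contDiff_const

theorem adj_pdv_congr {f g : E m → F} {x : E m} (h : f =ᶠ[𝓝 x] g) (a : Fin m) :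
    pdv a f x = pdv a g x := by
  unfold pdv
  rw [h.fderiv_eq]

theorem adj_pdv_eventuallyEq {f g : E m → F} {x : E m} (h : f =ᶠ[𝓝 x] g) (a : Fin m) :
    pdv a f =ᶠ[𝓝 x] pdv a g := by
  filter_upwards [h.eventuallyEq_nhds] with z hz using adj_pdv_congr hz a

theorem adj_pdv_zero (a : Fin m) : pdv a (fun _ : E m => (0 : F)) = fun _ => 0 := by
  funext z
  simp [pdv]

theorem adj_pdv_eq_zero {f : E m → F} {x : E m} (h : f =ᶠ[𝓝 x] fun _ => 0) (a : Fin m) :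
    pdv a f x = 0 := by
  rw [adj_pdv_congr h, adj_pdv_zero]

theorem adj_pdv_pdv_eq_zero {f : E m → F} {x : E m} (h : f =ᶠ[𝓝 x] fun _ => 0) (a b : Fin m) :
    pdv a (pdv b f) x = 0 := by
  rw [adj_pdv_congr (adj_pdv_eventuallyEq h b), adj_pdv_zero, adj_pdv_zero]

theorem adj_hasCompactSupport_pdv {f : E m → F} (hc : HasCompactSupport f) (a : Fin m) :
    HasCompactSupport (pdv a f) :=
  (hc.fderiv ℝ).comp_left (g := fun L : E m →L[ℝ] F => L (EuclideanSpace.single a 1)) (by simp)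

end tools

theorem adj_integrable_inner {F G : E m → E n} (hF : Continuous F) (hG : Continuous G)
    (hc : HasCompactSupport F) : Integrable (fun y => ⟪F y, G y⟫) := by
  refine (hF.inner hG).integrable_of_hasCompactSupport ?_
  refine hc.mono ?_
  intro y hy
  rw [Function.mem_support] at hy ⊢
  intro h0
  apply hy
  rw [h0, inner_zero_left]

/-! ### leaf L-Fit-Adj-ibp -/

/-- integration by parts. -/
theorem integral_inner_pdv {F G : E m → E n} (hF : ContDiff ℝ 1 F) (hG : ContDiff ℝ 1 G)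
    (hc : HasCompactSupport F) (a : Fin m) :
    ∫ y, ⟪pdv a F y, G y⟫ = - ∫ y, ⟪F y, pdv a G y⟫ := by
  have hF' : Continuous (pdv a F) := (adj_contDiff_pdv (k := 0) (by exact_mod_cast hF) a).continuous
  have hG' : Continuous (pdv a G) := (adj_contDiff_pdv (k := 0) (by exact_mod_cast hG) a).continuous
  have key := integral_bilinear_fderiv_right_eq_neg_left_of_integrable (μ := (volume : Measure (E m)))
    (B := innerSL ℝ) (f := F) (g := G) (v := EuclideanSpace.single a 1)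
    (adj_integrable_inner hF' hG.continuous (adj_hasCompactSupport_pdv hc a))
    (adj_integrable_inner hF.continuous hG' hc)
    (adj_integrable_inner hF.continuous hG.continuous hc)
    (fun x _ => hF.differentiable (by norm_num) x) (fun x _ => hG.differentiable (by norm_num) x)
  have key' : ∫ y, ⟪F y, pdv a G y⟫ = - ∫ y, ⟪pdv a F y, G y⟫ := key
  rw [key', neg_neg]

theorem integral_inner_pdv_pdv {F G : E m → E n} (hF : ContDiff ℝ 2 F) (hG : ContDiff ℝ 2 G)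
    (hc : HasCompactSupport F) (a b : Fin m) :
    ∫ y, ⟪pdv a (pdv b F) y, G y⟫ = ∫ y, ⟪F y, pdv b (pdv a G) y⟫ := by
  have h1 : ContDiff ℝ 1 (pdv b F) := by
    exact_mod_cast adj_contDiff_pdv (k := 1) (by exact_mod_cast hF) b
  have h2 : ContDiff ℝ 1 (pdv a G) := by
    exact_mod_cast adj_contDiff_pdv (k := 1) (by exact_mod_cast hG) a
  rw [integral_inner_pdv h1 (hG.of_le (by norm_num)) (adj_hasCompactSupport_pdv hc b) a,
    integral_inner_pdv (hF.of_le (by norm_num)) h2 hc b, neg_neg]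

theorem Coef.Reg.contDiff_Y {c : Coef m n} {r : ℕ} (hc : c.Reg r) (a b : Fin m) :
    ContDiff ℝ r (c.Y a b) :=
  contDiff_of_cx (k := r) (hc.Y a b).contDiff

theorem Coef.Reg.contDiff_B {c : Coef m n} {r : ℕ} (hc : c.Reg r) (e : Fin m) (α γ : Fin n) :
    ContDiff ℝ r (c.B e α γ) :=
  contDiff_of_cx (k := r) (hc.B e α γ).contDiff

theorem Coef.Reg.contDiff_Bt {c : Coef m n} {r : ℕ} (hc : c.Reg r) {ζ : E m → E n}
    (hζ : ContDiff ℝ r ζ) (e : Fin m) : ContDiff ℝ r (c.Bt e ζ) := by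
  unfold Coef.Bt
  refine ContDiff.sum fun γ _ => ContDiff.fun_smul (ContDiff.sum fun α _ => ?_) contDiff_const
  exact (hc.contDiff_B e α γ).mul (contDiff_euclidean.1 hζ α)

theorem Coef.Reg.contDiff_Y_smul {c : Coef m n} {r : ℕ} (hc : c.Reg r) {ζ : E m → E n}
    (hζ : ContDiff ℝ r ζ) (a b : Fin m) : ContDiff ℝ r (fun y => c.Y a b y • ζ y) :=
  (hc.contDiff_Y a b).smul hζ

theorem Coef.inner_B_eq (c : Coef m n) (e : Fin m) (ζ : E m → E n) (v : E n) (y : E m) :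
    ⟪∑ α, ∑ γ, (c.B e α γ y * v γ) • (EuclideanSpace.single α (1 : ℝ) : E n), ζ y⟫
      = ⟪v, c.Bt e ζ y⟫ := by
  unfold Coef.Bt
  simp only [sum_inner, inner_sum, real_inner_smul_left, real_inner_smul_right,
    EuclideanSpace.inner_single_left, EuclideanSpace.inner_single_right, Finset.sum_mul]
  rw [Finset.sum_comm]
  refine Finset.sum_congr rfl fun γ _ => Finset.sum_congr rfl fun α _ => ?_
  simp
  ring

/-- **the adjoint identity.** -/
theorem Coef.integral_op_inner (c : Coef m n) (hc : c.Reg 2) {φ ζ : E m → E n}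
    (hφ : ContDiff ℝ 2 φ) (hφc : HasCompactSupport φ) (hζ : ContDiff ℝ 2 ζ) :
    ∫ y, ⟪c.op φ y, ζ y⟫ = ∫ y, ⟪φ y, c.adj ζ y⟫ := by
  have hYζ : ∀ a b, ContDiff ℝ 2 (fun y => c.Y a b y • ζ y) := fun a b =>
    hc.contDiff_Y_smul (by exact_mod_cast hζ) a b
  have hBt : ∀ e, ContDiff ℝ 2 (c.Bt e ζ) := fun e => hc.contDiff_Bt (by exact_mod_cast hζ) e
  have c1 : ∀ {G : E m → E n}, ContDiff ℝ 2 G → ∀ a, ContDiff ℝ 1 (pdv a G) := fun hG a => by
    exact_mod_cast adj_contDiff_pdv (k := 1) (by exact_mod_cast hG) a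
  have c0 : ∀ {G : E m → E n}, ContDiff ℝ 1 G → ∀ a, Continuous (pdv a G) := fun hG a =>
    (adj_contDiff_pdv (k := 0) (by exact_mod_cast hG) a).continuous
  have s1 : ∀ a, HasCompactSupport (pdv a φ) := fun a => adj_hasCompactSupport_pdv hφc a
  have s2 : ∀ a b, HasCompactSupport (pdv a (pdv b φ)) := fun a b =>
    adj_hasCompactSupport_pdv (s1 b) a
  -- the left side
  have eL : (fun y => ⟪c.op φ y, ζ y⟫) = fun y => (∑ a, ⟪pdv a (pdv a φ) y, ζ y⟫
      + ∑ a, ∑ b, ⟪pdv a (pdv b φ) y, c.Y a b y • ζ y⟫) + ∑ e, ⟪pdv e φ y, c.Bt e ζ y⟫ := by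
    funext y
    unfold Coef.op
    rw [inner_add_left, inner_add_left, sum_inner, sum_inner, sum_inner]
    congr 1
    · congr 1
      refine Finset.sum_congr rfl fun a _ => ?_
      rw [sum_inner]
      refine Finset.sum_congr rfl fun b _ => ?_
      rw [real_inner_smul_left, real_inner_smul_right]
    · exact Finset.sum_congr rfl fun e _ => c.inner_B_eq e ζ (pdv e φ y) y
  have eR : (fun y => ⟪φ y, c.adj ζ y⟫) = fun y => (∑ a, ⟪φ y, pdv a (pdv a ζ) y⟫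
      + ∑ a, ∑ b, ⟪φ y, pdv b (pdv a (fun y => c.Y a b y • ζ y)) y⟫)
      - ∑ e, ⟪φ y, pdv e (c.Bt e ζ) y⟫ := by
    funext y
    unfold Coef.adj
    rw [inner_sub_right, inner_add_right, inner_sum, inner_sum, inner_sum]
    congr 2
    exact Finset.sum_congr rfl fun a _ => inner_sum _ _ _
  have i1 : ∀ a, Integrable (fun y => ⟪pdv a (pdv a φ) y, ζ y⟫) := fun a =>
    adj_integrable_inner (c0 (c1 hφ a) a) hζ.continuous (s2 a a)
  have i2 : ∀ a b, Integrable (fun y => ⟪pdv a (pdv b φ) y, c.Y a b y • ζ y⟫) := fun a b =>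
    adj_integrable_inner (c0 (c1 hφ b) a) (hYζ a b).continuous (s2 a b)
  have i3 : ∀ e, Integrable (fun y => ⟪pdv e φ y, c.Bt e ζ y⟫) := fun e =>
    adj_integrable_inner (c0 (hφ.of_le (by norm_num)) e) (hBt e).continuous (s1 e)
  have j1 : ∀ a, Integrable (fun y => ⟪φ y, pdv a (pdv a ζ) y⟫) := fun a =>
    adj_integrable_inner hφ.continuous (c0 (c1 hζ a) a) hφc
  have j2 : ∀ a b, Integrable (fun y => ⟪φ y, pdv b (pdv a (fun y => c.Y a b y • ζ y)) y⟫) :=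
    fun a b => adj_integrable_inner hφ.continuous (c0 (c1 (hYζ a b) a) b) hφc
  have j3 : ∀ e, Integrable (fun y => ⟪φ y, pdv e (c.Bt e ζ) y⟫) := fun e =>
    adj_integrable_inner hφ.continuous (c0 ((hBt e).of_le (by norm_num)) e) hφc
  rw [eL, eR,
    integral_add ((integrable_finsetSum _ fun a _ => i1 a).fun_add
      (integrable_finsetSum _ fun a _ => integrable_finsetSum _ fun b _ => i2 a b))
      (integrable_finsetSum _ fun e _ => i3 e),
    integral_add (integrable_finsetSum _ fun a _ => i1 a)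
      (integrable_finsetSum _ fun a _ => integrable_finsetSum _ fun b _ => i2 a b),
    integral_sub ((integrable_finsetSum _ fun a _ => j1 a).fun_add
      (integrable_finsetSum _ fun a _ => integrable_finsetSum _ fun b _ => j2 a b))
      (integrable_finsetSum _ fun e _ => j3 e),
    integral_add (integrable_finsetSum _ fun a _ => j1 a)
      (integrable_finsetSum _ fun a _ => integrable_finsetSum _ fun b _ => j2 a b),
    integral_finsetSum _ fun a _ => i1 a, integral_finsetSum _ fun a _ => j1 a,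
    integral_finsetSum _ fun e _ => i3 e, integral_finsetSum _ fun e _ => j3 e,
    integral_finsetSum _ fun a _ => integrable_finsetSum _ fun b _ => i2 a b,
    integral_finsetSum _ fun a _ => integrable_finsetSum _ fun b _ => j2 a b, sub_eq_add_neg,
    ← Finset.sum_neg_distrib]
  congr 1
  · congr 1
    · exact Finset.sum_congr rfl fun a _ => integral_inner_pdv_pdv hφ hζ hφc a a
    · refine Finset.sum_congr rfl fun a _ => ?_
      rw [integral_finsetSum _ fun b _ => i2 a b, integral_finsetSum _ fun b _ => j2 a b]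
      exact Finset.sum_congr rfl fun b _ => integral_inner_pdv_pdv hφ (hYζ a b) hφc a b
  · exact Finset.sum_congr rfl fun e _ =>
      integral_inner_pdv (hφ.of_le (by norm_num)) ((hBt e).of_le (by norm_num)) hφc e

/-- the adjoint is local. -/
theorem Coef.adj_eq_zero_of_notMem (c : Coef m n) {ζ : E m → E n} {y : E m}
    (hy : y ∉ tsupport ζ) : c.adj ζ y = 0 := by
  have h0 : ζ =ᶠ[𝓝 y] fun _ => 0 := notMem_tsupport_iff_eventuallyEq.mp hy
  have h1 : ∀ a b, (fun y => c.Y a b y • ζ y) =ᶠ[𝓝 y] fun _ => 0 := fun a b => by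
    filter_upwards [h0] with z hz
    rw [hz, smul_zero]
  have h2 : ∀ e, c.Bt e ζ =ᶠ[𝓝 y] fun _ => 0 := fun e => by
    filter_upwards [h0] with z hz
    unfold Coef.Bt
    simp [hz]
  unfold Coef.adj
  simp only [adj_pdv_pdv_eq_zero h0, adj_pdv_pdv_eq_zero (h1 _ _), adj_pdv_eq_zero (h2 _),
    Finset.sum_const_zero, add_zero, sub_zero]

theorem Coef.continuous_adj (c : Coef m n) (hc : c.Reg 2) {ζ : E m → E n} (hζ : ContDiff ℝ 2 ζ) :
    Continuous (c.adj ζ) := by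
  have hYζ : ∀ a b, ContDiff ℝ 2 (fun y => c.Y a b y • ζ y) := fun a b =>
    hc.contDiff_Y_smul (by exact_mod_cast hζ) a b
  have hBt : ∀ e, ContDiff ℝ 2 (c.Bt e ζ) := fun e => hc.contDiff_Bt (by exact_mod_cast hζ) e
  have c1 : ∀ {G : E m → E n}, ContDiff ℝ 2 G → ∀ a, ContDiff ℝ 1 (pdv a G) := fun hG a => by
    exact_mod_cast adj_contDiff_pdv (k := 1) (by exact_mod_cast hG) a
  have c0 : ∀ {G : E m → E n}, ContDiff ℝ 1 G → ∀ a, Continuous (pdv a G) := fun hG a =>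
    (adj_contDiff_pdv (k := 0) (by exact_mod_cast hG) a).continuous
  unfold Coef.adj
  refine ((continuous_finsetSum _ fun a _ => c0 (c1 hζ a) a).add
    (continuous_finsetSum _ fun a _ => continuous_finsetSum _ fun b _ =>
      c0 (c1 (hYζ a b) a) b)).sub
    (continuous_finsetSum _ fun e _ => c0 ((hBt e).of_le (by norm_num)) e)

/-! ### leaf L-Fit-Adj-bound -/

theorem Coef.cxv_Bt (c : Coef m n) (e : Fin m) (ζ : E m → E n) (γ : Fin n) :
    Boot.cxv (c.Bt e ζ) γ = fun y => ∑ α, cx (c.B e α γ) y * Boot.cxv ζ α y := by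
  funext y
  simp [Boot.cxv, Coef.Bt, cx, Finset.sum_apply, Pi.single_apply]

theorem Coef.Reg.VIn_Bt {c : Coef m n} {s : ℕ} (hc : c.Reg s) {ζ : E m → E n} (hζ : VIn s ζ)
    (e : Fin m) : VIn s (c.Bt e ζ) := fun γ => by
  rw [Coef.cxv_Bt]
  exact InA.sum _ fun α _ => (hc.B e α γ).mul (hζ α)

theorem Coef.vAl_Bt_le (c : Coef m n) (s : ℕ) {ℓ : ℝ} (hℓ : 0 < ℓ) (hc : c.Reg 0) {ζ : E m → E n}
    (hζ : VIn 0 ζ) (e : Fin m) :
    vAl s ℓ (c.Bt e ζ) ≤ (∑ α, ∑ γ, nAl s ℓ (cx (c.B e α γ))) * vAl s ℓ ζ := by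
  have h1 : ∀ γ, nAl s ℓ (Boot.cxv (c.Bt e ζ) γ) ≤ ∑ α, nAl s ℓ (cx (c.B e α γ)) * vAl s ℓ ζ :=
    fun γ => by
      rw [Coef.cxv_Bt]
      refine (nAl_sum_le s ℓ _ fun α _ => ((hc.B e α γ).mul (hζ α)).integrable).trans ?_
      refine Finset.sum_le_sum fun α _ => ?_
      refine (nAl_mul_le s hℓ (hc.B e α γ) (hζ α)).trans (mul_le_mul' le_rfl ?_)
      exact Finset.single_le_sum (f := fun α => nAl s ℓ (Boot.cxv ζ α)) (fun _ _ => zero_le)
        (Finset.mem_univ α)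
  unfold vAl at h1 ⊢
  refine (Finset.sum_le_sum fun γ _ => h1 γ).trans (le_of_eq ?_)
  rw [Finset.sum_comm, Finset.sum_mul]
  exact Finset.sum_congr rfl fun α _ => (Finset.sum_mul _ _ _).symm

/-- two derivatives cost `(2π/ℓ)²`. -/
theorem vAl_pdv_pdv_le' (r : ℕ) {ℓ : ℝ} (hℓ : 0 < ℓ) {w : E m → E n} (h : VIn 2 w) (a b : Fin m) :
    ENNReal.ofReal ℓ * (ENNReal.ofReal ℓ * vAl r ℓ (pdv a (pdv b w)))
      ≤ ENNReal.ofReal (2 * Real.pi) * (ENNReal.ofReal (2 * Real.pi) * vAl (r + 2) ℓ w) := by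
  calc ENNReal.ofReal ℓ * (ENNReal.ofReal ℓ * vAl r ℓ (pdv a (pdv b w)))
      ≤ ENNReal.ofReal ℓ * (ENNReal.ofReal (2 * Real.pi) * vAl (r + 1) ℓ (pdv b w)) :=
        mul_le_mul' le_rfl (vAl_pdv_pdv_le r hℓ h a b)
    _ = ENNReal.ofReal (2 * Real.pi) * (ENNReal.ofReal ℓ * vAl (r + 1) ℓ (pdv b w)) := by ring
    _ ≤ _ := mul_le_mul' le_rfl (vAl_pdv_le (r + 1) hℓ (h.mono (by norm_num)) b)

theorem Coef.adj_bound (c : Coef m n) (r : ℕ) {ℓ : ℝ} (hℓ : 0 < ℓ) (hc : c.Reg (r + 2))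
    {ζ : E m → E n} (hζ : VIn (r + 2) ζ) :
    VIn r (c.adj ζ) ∧
      ENNReal.ofReal (ℓ ^ 2) * vAl r ℓ (c.adj ζ)
        ≤ ENNReal.ofReal ((2 * Real.pi) ^ 2) * ((m + c.sizel (r + 2) ℓ) * vAl (r + 2) ℓ ζ) := by
  have hYζ : ∀ a b, VIn (r + 2) (fun y => c.Y a b y • ζ y) := fun a b => hζ.smul (hc.Y a b)
  have hBt : ∀ e, VIn (r + 2) (c.Bt e ζ) := fun e => hc.VIn_Bt hζ e
  have V1 : ∀ a, VIn r (pdv a (pdv a ζ)) := fun a => VIn.pdv (VIn.pdv (r := r + 1) hζ a) a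
  have V2 : ∀ a b, VIn r (pdv b (pdv a (fun y => c.Y a b y • ζ y))) := fun a b =>
    VIn.pdv (VIn.pdv (r := r + 1) (hYζ a b) a) b
  have V3 : ∀ e, VIn r (pdv e (c.Bt e ζ)) := fun e =>
    (VIn.pdv (r := r + 1) (hBt e) e).mono (Nat.le_succ r)
  have S1 : VIn r (fun y => ∑ a, pdv a (pdv a ζ) y) := VIn.sum _ fun a _ => V1 a
  have S2 : VIn r (fun y => ∑ a, ∑ b, pdv b (pdv a (fun y => c.Y a b y • ζ y)) y) :=
    VIn.sum _ fun a _ => VIn.sum _ fun b _ => V2 a b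
  have S3 : VIn r (fun y => ∑ e, pdv e (c.Bt e ζ) y) := VIn.sum _ fun e _ => V3 e
  have hV : VIn r (c.adj ζ) := (S1.add S2).sub S3
  refine ⟨hV, ?_⟩
  obtain ⟨L, hLdef⟩ : ∃ L, L = ENNReal.ofReal ℓ := ⟨_, rfl⟩
  obtain ⟨P, hPdef⟩ : ∃ P, P = ENNReal.ofReal (2 * Real.pi) := ⟨_, rfl⟩
  obtain ⟨V, hVdef⟩ : ∃ V, V = vAl (r + 2) ℓ ζ := ⟨_, rfl⟩
  have hL : ENNReal.ofReal (ℓ ^ 2) = L * L := by rw [hLdef, sq, ENNReal.ofReal_mul hℓ.le]
  have hP : ENNReal.ofReal ((2 * Real.pi) ^ 2) = P * P := by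
    rw [hPdef, sq, ENNReal.ofReal_mul (by positivity)]
  have hP1 : 1 ≤ P := by
    rw [hPdef, ← ENNReal.ofReal_one]
    exact ENNReal.ofReal_le_ofReal (by linarith [Real.pi_gt_three])
  have z : ∀ {w : E m → E n}, VIn r w → VIn 0 w := fun h => h.mono (Nat.zero_le r)
  have b0 : vAl r ℓ (c.adj ζ) ≤ (∑ a, vAl r ℓ (pdv a (pdv a ζ))
      + ∑ a, ∑ b, vAl r ℓ (pdv b (pdv a (fun y => c.Y a b y • ζ y))))
      + ∑ e, vAl r ℓ (pdv e (c.Bt e ζ)) := by
    refine (vAl_sub_le r ℓ (z (S1.add S2)) (z S3)).trans ?_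
    refine add_le_add ((vAl_add_le r ℓ (z S1) (z S2)).trans (add_le_add ?_ ?_)) ?_
    · exact vAl_sum_le r ℓ _ fun a _ => z (V1 a)
    · refine (vAl_sum_le r ℓ _ fun a _ => z (VIn.sum _ fun b _ => V2 a b)).trans ?_
      exact Finset.sum_le_sum fun a _ => vAl_sum_le r ℓ _ fun b _ => z (V2 a b)
    · exact vAl_sum_le r ℓ _ fun e _ => z (V3 e)
  have b1 : ∀ a, L * (L * vAl r ℓ (pdv a (pdv a ζ))) ≤ P * (P * V) := fun a => by
    rw [hLdef, hPdef, hVdef]
    exact vAl_pdv_pdv_le' r hℓ (hζ.mono (by omega)) a a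
  have b2 : ∀ a b, L * (L * vAl r ℓ (pdv b (pdv a (fun y => c.Y a b y • ζ y))))
      ≤ P * (P * (nAl (r + 2) ℓ (cx (c.Y a b)) * V)) := fun a b => by
    rw [hLdef, hPdef, hVdef]
    exact (vAl_pdv_pdv_le' r hℓ ((hYζ a b).mono (by omega)) b a).trans
      (mul_le_mul' le_rfl (mul_le_mul' le_rfl (vAl_smul_le (r + 2) hℓ (hζ.mono (Nat.zero_le _))
        ((hc.Y a b).mono (Nat.zero_le _)))))
  have b3 : ∀ e, L * (L * vAl r ℓ (pdv e (c.Bt e ζ)))
      ≤ P * (P * (L * (∑ α, ∑ γ, nAl (r + 2) ℓ (cx (c.B e α γ))) * V)) := fun e => by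
    calc L * (L * vAl r ℓ (pdv e (c.Bt e ζ))) ≤ L * (P * vAl (r + 1) ℓ (c.Bt e ζ)) := by
          rw [hLdef, hPdef]
          exact mul_le_mul' le_rfl (vAl_pdv_le r hℓ ((hBt e).mono (by omega)) e)
      _ ≤ L * (P * vAl (r + 2) ℓ (c.Bt e ζ)) :=
          mul_le_mul' le_rfl (mul_le_mul' le_rfl (vAl_mono (Nat.le_succ _) hℓ.le _))
      _ ≤ L * (P * ((∑ α, ∑ γ, nAl (r + 2) ℓ (cx (c.B e α γ))) * V)) := by
          rw [hVdef]
          exact mul_le_mul' le_rfl (mul_le_mul' le_rfl (c.vAl_Bt_le (r + 2) hℓ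
            (hc.mono (Nat.zero_le _)) (hζ.mono (Nat.zero_le _)) e))
      _ = 1 * (P * (L * (∑ α, ∑ γ, nAl (r + 2) ℓ (cx (c.B e α γ))) * V)) := by ring
      _ ≤ _ := mul_le_mul' hP1 le_rfl
  rw [hL, hP, ← hVdef]
  calc L * L * vAl r ℓ (c.adj ζ) ≤ L * L * ((∑ a, vAl r ℓ (pdv a (pdv a ζ))
      + ∑ a, ∑ b, vAl r ℓ (pdv b (pdv a (fun y => c.Y a b y • ζ y))))
      + ∑ e, vAl r ℓ (pdv e (c.Bt e ζ))) := mul_le_mul' le_rfl b0
    _ = (∑ a, L * (L * vAl r ℓ (pdv a (pdv a ζ)))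
      + ∑ a, ∑ b, L * (L * vAl r ℓ (pdv b (pdv a (fun y => c.Y a b y • ζ y)))))
      + ∑ e, L * (L * vAl r ℓ (pdv e (c.Bt e ζ))) := by
        simp only [mul_add, Finset.mul_sum, mul_assoc]
    _ ≤ (∑ _a : Fin m, P * (P * V) + ∑ a, ∑ b, P * (P * (nAl (r + 2) ℓ (cx (c.Y a b)) * V)))
      + ∑ e, P * (P * (L * (∑ α, ∑ γ, nAl (r + 2) ℓ (cx (c.B e α γ))) * V)) :=
        add_le_add (add_le_add (Finset.sum_le_sum fun a _ => b1 a)
          (Finset.sum_le_sum fun a _ => Finset.sum_le_sum fun b _ => b2 a b))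
          (Finset.sum_le_sum fun e _ => b3 e)
    _ = P * P * ((m + c.sizel (r + 2) ℓ) * V) := by
        unfold Coef.sizel
        rw [← hLdef]
        simp only [Finset.sum_const, Finset.card_univ, Fintype.card_fin, nsmul_eq_mul,
          ← Finset.mul_sum, ← Finset.sum_mul]
        ring

theorem Coef.adj_lip (c : Coef m n) {ℓ : ℝ} (hℓ : 0 < ℓ) (hc : c.Reg 3) {ζ : E m → E n}
    (hζ : VIn 3 ζ) {K : ℝ} (hK0 : 0 ≤ K)
    (hK : (m + c.sizel 3 ℓ) * vAl 3 ℓ ζ ≤ ENNReal.ofReal K) (y y' : E m) :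
    ℓ ^ 3 * ‖c.adj ζ y - c.adj ζ y'‖ ≤ (2 * Real.pi) ^ 3 * m * K * ‖y - y'‖ := by
  obtain ⟨hV, hb⟩ := c.adj_bound 1 hℓ hc hζ
  have hπ : 0 ≤ 2 * Real.pi := by positivity
  have hd : ∀ z, ‖fderiv ℝ (c.adj ζ) z‖ ≤ (2 * Real.pi) ^ 3 * m * K / ℓ ^ 3 := fun z => by
    have h1 := norm_fderiv_le_sAl hV ℓ z
    have h2 := sAl_le_vAl 0 hℓ hV
    have h3 : ENNReal.ofReal (ℓ ^ 2) * (ENNReal.ofReal ℓ * ENNReal.ofReal ‖fderiv ℝ (c.adj ζ) z‖)
        ≤ ENNReal.ofReal (2 * Real.pi * m) * (ENNReal.ofReal ((2 * Real.pi) ^ 2) * ENNReal.ofReal K) := by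
      calc ENNReal.ofReal (ℓ ^ 2) * (ENNReal.ofReal ℓ * ENNReal.ofReal ‖fderiv ℝ (c.adj ζ) z‖)
          ≤ ENNReal.ofReal (ℓ ^ 2) * (ENNReal.ofReal ℓ * sAl 0 ℓ (c.adj ζ)) :=
            mul_le_mul' le_rfl (mul_le_mul' le_rfl h1)
        _ ≤ ENNReal.ofReal (ℓ ^ 2) * (ENNReal.ofReal (2 * Real.pi * m) * vAl (0 + 1) ℓ (c.adj ζ)) :=
            mul_le_mul' le_rfl h2
        _ = ENNReal.ofReal (2 * Real.pi * m) * (ENNReal.ofReal (ℓ ^ 2) * vAl 1 ℓ (c.adj ζ)) := by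
            rw [zero_add]
            ring
        _ ≤ _ := mul_le_mul' le_rfl (hb.trans (mul_le_mul' le_rfl hK))
    rw [← ENNReal.ofReal_mul hℓ.le, ← ENNReal.ofReal_mul (by positivity),
      ← ENNReal.ofReal_mul (by positivity), ← ENNReal.ofReal_mul (by positivity),
      ENNReal.ofReal_le_ofReal_iff (by positivity)] at h3
    rw [le_div_iff₀ (by positivity)]
    calc ‖fderiv ℝ (c.adj ζ) z‖ * ℓ ^ 3 = ℓ ^ 2 * (ℓ * ‖fderiv ℝ (c.adj ζ) z‖) := by ring
      _ ≤ 2 * Real.pi * m * ((2 * Real.pi) ^ 2 * K) := h3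
      _ = _ := by ring
  have hdiff : Differentiable ℝ (c.adj ζ) := hV.differentiable
  have key := Convex.norm_image_sub_le_of_norm_fderiv_le (s := Set.univ)
    (fun z _ => hdiff z) (fun z _ => hd z) convex_univ (Set.mem_univ y') (Set.mem_univ y)
  calc ℓ ^ 3 * ‖c.adj ζ y - c.adj ζ y'‖
      ≤ ℓ ^ 3 * ((2 * Real.pi) ^ 3 * m * K / ℓ ^ 3 * ‖y - y'‖) :=
        mul_le_mul_of_nonneg_left key (by positivity)
    _ = _ := by
        field_simp

/-! ### leaf L-Fit-Adj-test -/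

/-- scalar tests at unit scale are bounded in the Wiener scale. -/
theorem exists_nA_tst_le (m r : ℕ) (R : ℝ) : ∃ C : ℝ, 0 ≤ C ∧ ∀ (φ : E m → ℝ) (A : ℝ),
    IsTst (r + m + 1) (Metric.ball 0 R) A φ → nA r (cx φ) ≤ ENNReal.ofReal (C * A) := by
  obtain ⟨C0, hC0, h0⟩ := exists_nA_le m r
  set V : ℝ := (volume : Measure (E m)).real (Metric.ball 0 R) with hV
  have hV0 : 0 ≤ V := measureReal_nonneg
  refine ⟨C0 * ((((r + m + 2 : ℕ) : ℝ)) * V), by positivity, fun φ A hφ => ?_⟩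
  have hA := hφ.nonneg
  have hcs : HasCompactSupport (cx φ) :=
    hasCompactSupport_cx (hφ.hasCompactSupport Metric.isBounded_ball)
  have hcd : ContDiff ℝ (r + m + 1 : ℕ) (cx φ) :=
    (contDiff_cx (k := ⊤) hφ.smooth).of_le (by exact_mod_cast le_top)
  have hI : ∀ j ∈ Finset.range (r + m + 2), ∫ y, ‖iteratedFDeriv ℝ j (cx φ) y‖ ≤ A * V := by
    intro j hj
    have hj' : j ≤ r + m + 1 := by have := Finset.mem_range.mp hj; omega
    have hzero : ∀ y, y ∉ Metric.ball (0 : E m) R → ‖iteratedFDeriv ℝ j (cx φ) y‖ = 0 := by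
      intro y hy
      rw [norm_iteratedFDeriv_cx hφ.smooth, norm_eq_zero]
      by_contra hne
      exact hy (hφ.supp (support_iteratedFDeriv_subset (𝕜 := ℝ) j hne))
    rw [← setIntegral_eq_integral_of_forall_compl_eq_zero hzero]
    have h2 := norm_setIntegral_le_of_norm_le_const (μ := (volume : Measure (E m)))
      (s := Metric.ball (0 : E m) R) (f := fun y => ‖iteratedFDeriv ℝ j (cx φ) y‖) (C := A)
      measure_ball_lt_top (fun y _ => by
        rw [norm_norm, norm_iteratedFDeriv_cx hφ.smooth]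
        exact hφ.bound j hj' y)
    exact (le_abs_self _).trans h2
  have hS : ∑ j ∈ Finset.range (r + m + 2), ∫ y, ‖iteratedFDeriv ℝ j (cx φ) y‖
      ≤ ((r + m + 2 : ℕ) : ℝ) * V * A := by
    calc ∑ j ∈ Finset.range (r + m + 2), ∫ y, ‖iteratedFDeriv ℝ j (cx φ) y‖
        ≤ ∑ _j ∈ Finset.range (r + m + 2), A * V := Finset.sum_le_sum hI
      _ = ((r + m + 2 : ℕ) : ℝ) * V * A := by
          rw [Finset.sum_const, Finset.card_range, nsmul_eq_mul]
          ring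
  refine (h0 (cx φ) hcd hcs).trans (ENNReal.ofReal_le_ofReal ?_)
  calc C0 * ∑ j ∈ Finset.range (r + m + 2), ∫ y, ‖iteratedFDeriv ℝ j (cx φ) y‖
      ≤ C0 * (((r + m + 2 : ℕ) : ℝ) * V * A) := mul_le_mul_of_nonneg_left hS hC0
    _ = _ := by ring

/-- tests are bounded in the Wiener scale. -/
theorem exists_vAl_test_le (m n r : ℕ) (R : ℝ) : ∃ C : ℝ, 0 ≤ C ∧
    ∀ (x : E m) (ℓ : ℝ), 0 < ℓ → ∀ (ζ : E m → E n) (A : ℝ),
      IsTsl (r + m + 1) (Metric.ball x (R * ℓ)) ℓ A ζ →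
      VIn r ζ ∧ vAl r ℓ ζ ≤ ENNReal.ofReal (C * A) := by
  obtain ⟨C1, hC1, h1⟩ := exists_nA_tst_le m r R
  refine ⟨n * C1, by positivity, fun x ℓ hℓ ζ A hζ => ?_⟩
  have hc : HasCompactSupport ζ :=
    Metric.isCompact_of_isClosed_isBounded (isClosed_tsupport ζ) (Metric.isBounded_ball.subset hζ.supp)
  refine ⟨VIn.of_smooth hζ.smooth hc r, ?_⟩
  have hA : 0 ≤ A := by
    have := hζ.bound 0 (Nat.zero_le _) 0
    rw [pow_zero, one_mul] at this
    exact (norm_nonneg _).trans this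
  have h2 : ∀ α : Fin n, nAl r ℓ (Boot.cxv ζ α) ≤ ENNReal.ofReal (C1 * A) := fun α => by
    rw [← nA_Zm r x hℓ]
    exact h1 _ A (hζ.isTst_Zm hℓ α)
  unfold vAl
  refine (Finset.sum_le_sum fun α _ => h2 α).trans (le_of_eq ?_)
  rw [Finset.sum_const, Finset.card_univ, Fintype.card_fin, nsmul_eq_mul, mul_assoc,
    ENNReal.ofReal_mul (Nat.cast_nonneg n), ENNReal.ofReal_natCast]

/-! ### leaf L-Fit-Adj-dense -/

section moll

open scoped Convolution
open ContinuousLinearMap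

/-- derivative of a mollification. -/
theorem adj_fderiv_conv {F : Type} [NormedAddCommGroup F] [NormedSpace ℝ F]
    {ρ : E m → ℝ} (hρ : Continuous ρ) {X : E m → F} (hX : ContDiff ℝ 1 X)
    (hc : HasCompactSupport X) :
    fderiv ℝ (ρ ⋆[lsmul ℝ ℝ, volume] X) = ρ ⋆[lsmul ℝ ℝ, volume] fderiv ℝ X := by
  funext x
  have h1 := hc.hasFDerivAt_convolution_right (lsmul ℝ ℝ : ℝ →L[ℝ] F →L[ℝ] F)
    (μ := (volume : Measure (E m))) hρ.locallyIntegrable hX x
  rw [h1.fderiv]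
  rw [convolution_def, convolution_def]
  refine integral_congr_ae (Filter.Eventually.of_forall fun t => ?_)
  ext v
  simp [precompR_apply]

/-- sup bound of a mollification. -/
theorem adj_norm_conv_le {F : Type} [NormedAddCommGroup F] [NormedSpace ℝ F]
    {ρ : E m → ℝ} (hρ0 : ∀ t, 0 ≤ ρ t) (hρi : Integrable ρ) (hρ1 : ∫ t, ρ t = 1)
    (X : E m → F) (M : ℝ) (hM : ∀ y, ‖X y‖ ≤ M) (y : E m) :
    ‖(ρ ⋆[lsmul ℝ ℝ, volume] X) y‖ ≤ M := by
  rw [convolution_def]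
  have h1 : ‖∫ t, (lsmul ℝ ℝ (ρ t)) (X (y - t))‖ ≤ ∫ t, ρ t * M := by
    refine norm_integral_le_of_norm_le (hρi.mul_const M) (Filter.Eventually.of_forall fun t => ?_)
    rw [lsmul_apply, norm_smul, Real.norm_eq_abs, abs_of_nonneg (hρ0 t)]
    exact mul_le_mul_of_nonneg_left (hM _) (hρ0 t)
  rwa [integral_mul_const, hρ1, one_mul] at h1

/-- sup bounds of the derivatives of a mollification. -/
theorem adj_norm_iteratedFDeriv_conv_le {ρ : E m → ℝ} (hρ : Continuous ρ) (hρ0 : ∀ t, 0 ≤ ρ t)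
    (hρi : Integrable ρ) (hρ1 : ∫ t, ρ t = 1) (j : ℕ) :
    ∀ {F : Type} [NormedAddCommGroup F] [NormedSpace ℝ F] (X : E m → F), ContDiff ℝ j X →
      HasCompactSupport X → ∀ M : ℝ, (∀ y, ‖iteratedFDeriv ℝ j X y‖ ≤ M) →
      ∀ y, ‖iteratedFDeriv ℝ j (ρ ⋆[lsmul ℝ ℝ, volume] X) y‖ ≤ M := by
  induction j with
  | zero =>
    intro F _ _ X _ _ M hM y
    rw [norm_iteratedFDeriv_zero]
    exact adj_norm_conv_le hρ0 hρi hρ1 X M (fun y => by
      have := hM y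
      rwa [norm_iteratedFDeriv_zero] at this) y
  | succ j ih =>
    intro F _ _ X hX hc M hM y
    have hX1 : ContDiff ℝ 1 X := hX.of_le (by
      have : (1 : ℕ) ≤ j + 1 := Nat.le_add_left 1 j
      exact_mod_cast this)
    rw [← norm_iteratedFDeriv_fderiv, adj_fderiv_conv hρ hX1 hc]
    refine ih (fderiv ℝ X) (hX.fderiv_right (m := j) (by norm_cast)) (hc.fderiv ℝ) M (fun y => ?_) y
    rw [norm_iteratedFDeriv_fderiv]
    exact hM y

/-- smooth approximation of a `C^N` map with compact support in `O`, keeping the sup bounds of the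
derivatives up to order `N`. -/
theorem adj_exists_approx {N : ℕ} {O : Set (E m)} (hO : IsOpen O) {ζ : E m → E n}
    (hζ : ContDiff ℝ N ζ) (hc : HasCompactSupport ζ) (hs : tsupport ζ ⊆ O) :
    ∃ K : Set (E m), IsCompact K ∧ K ⊆ O ∧ tsupport ζ ⊆ K ∧ ∀ η : ℝ, 0 < η →
      ∃ Y : E m → E n, ContDiff ℝ ∞ Y ∧ tsupport Y ⊆ K ∧ (∀ y, ‖Y y - ζ y‖ ≤ η) ∧
        ∀ j : ℕ, j ≤ N → ∀ M : ℝ, (∀ y, ‖iteratedFDeriv ℝ j ζ y‖ ≤ M) →
          ∀ y, ‖iteratedFDeriv ℝ j Y y‖ ≤ M := by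
  obtain ⟨δ, hδ, hδO⟩ := hc.isCompact.exists_cthickening_subset_open hO hs
  have hK : IsCompact (Metric.cthickening δ (tsupport ζ)) := hc.isCompact.cthickening
  have hu : UniformContinuous ζ := hc.uniformContinuous_of_continuous hζ.continuous
  refine ⟨Metric.cthickening δ (tsupport ζ), hK, hδO, Metric.self_subset_cthickening _,
    fun η hη => ?_⟩
  obtain ⟨r₁, hr₁, h₁⟩ := Metric.uniformContinuous_iff.1 hu η hη
  have hr0 : 0 < min δ r₁ := lt_min hδ hr₁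
  let φ : ContDiffBump (0 : E m) := ⟨min δ r₁ / 2, min δ r₁, half_pos hr0, half_lt_self hr0⟩
  have hφr : φ.rOut = min δ r₁ := rfl
  refine ⟨φ.normed volume ⋆[lsmul ℝ ℝ, volume] ζ, ?_, ?_, fun x => ?_, fun j hj M hM y => ?_⟩
  · exact φ.hasCompactSupport_normed.contDiff_convolution_left _ φ.contDiff_normed
      hζ.continuous.locallyIntegrable
  · refine closure_minimal (fun x hx => ?_) hK.isClosed
    by_contra hxK
    apply hx
    have hz : ∀ y ∈ Metric.ball x φ.rOut, ζ y = 0 := by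
      intro y hy
      by_contra hne
      apply hxK
      have hy' : y ∈ tsupport ζ := subset_tsupport ζ hne
      apply Metric.mem_cthickening_of_dist_le x y δ _ hy'
      rw [dist_comm]
      exact (Metric.mem_ball.1 hy).le.trans (hφr.le.trans (min_le_left _ _))
    have hx0 : ζ x = 0 := hz x (Metric.mem_ball_self φ.rOut_pos)
    have := φ.normed_convolution_eq_right (μ := (volume : Measure (E m))) (x₀ := x) (g := ζ)
      (fun y hy => by rw [hz y hy, hx0])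
    exact this.trans hx0
  · rw [← dist_eq_norm]
    exact φ.dist_normed_convolution_le hζ.continuous.aestronglyMeasurable
      (fun y hy => (h₁ ((Metric.mem_ball.1 hy).trans_le (hφr.le.trans (min_le_right _ _)))).le)
  · exact adj_norm_iteratedFDeriv_conv_le φ.continuous_normed φ.nonneg_normed φ.integrable_normed
      φ.integral_normed j ζ (hζ.of_le (by exact_mod_cast hj)) hc M hM y

end moll

/-- a weak bound holds for all tests of class `C^N`. -/
theorem WeakV.of_contDiff {N : ℕ} {O : Set (E m)} (hO : IsOpen O) {ℓ : ℝ} (hℓ : 0 < ℓ)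
    {w : E m → E n} {b : ℝ} (h : WeakV N O ℓ w b) (hw : Continuous w) {ζ : E m → E n} {A : ℝ}
    (hζ : ContDiff ℝ N ζ) (hc : HasCompactSupport ζ) (hs : tsupport ζ ⊆ O)
    (hb : ∀ j : ℕ, j ≤ N → ∀ y, ℓ ^ j * ‖iteratedFDeriv ℝ j ζ y‖ ≤ A) :
    |∫ y, ⟪w y, ζ y⟫| ≤ b * A := by
  obtain ⟨K, hK, hKO, hζK, happ⟩ := adj_exists_approx hO hζ hc hs
  obtain ⟨W, hWdef⟩ : ∃ W : ℝ, W = ∫ y in K, ‖w y‖ := ⟨_, rfl⟩
  have hW0 : 0 ≤ W := by
    rw [hWdef]
    exact integral_nonneg fun y => norm_nonneg _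
  refine le_of_forall_pos_le_add fun ε hε => ?_
  obtain ⟨Y, hYs, hYK, hYd, hYb⟩ := happ (ε / (W + 1)) (by positivity)
  have hT : IsTsl N O ℓ A Y := by
    refine ⟨hYs, hYK.trans hKO, fun j hj y => ?_⟩
    have hp : 0 < ℓ ^ j := pow_pos hℓ j
    have := hYb j hj (A / ℓ ^ j) (fun y => by
      rw [le_div_iff₀' hp]
      exact hb j hj y) y
    rwa [le_div_iff₀' hp] at this
  have h1 := h Y A hT
  have hYc : HasCompactSupport Y := hK.of_isClosed_subset (isClosed_tsupport Y) hYK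
  have i1 : Integrable (fun y => ⟪w y, ζ y⟫) := by
    have := adj_integrable_inner hζ.continuous hw hc
    simpa only [real_inner_comm] using this
  have i2 : Integrable (fun y => ⟪w y, Y y⟫) := by
    have := adj_integrable_inner hYs.continuous hw hYc
    simpa only [real_inner_comm] using this
  have hint : Integrable (K.indicator fun y => ε / (W + 1) * ‖w y‖) :=
    ((hw.norm.const_mul _).continuousOn.integrableOn_compact hK).integrable_indicator
      hK.measurableSet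
  have h2 : |(∫ y, ⟪w y, ζ y⟫) - ∫ y, ⟪w y, Y y⟫| ≤ ε / (W + 1) * W := by
    rw [← integral_sub i1 i2, ← Real.norm_eq_abs]
    refine (norm_integral_le_of_norm_le hint (Filter.Eventually.of_forall fun y => ?_)).trans
      (le_of_eq ?_)
    · rw [← inner_sub_right]
      by_cases hy : y ∈ K
      · rw [Set.indicator_of_mem hy]
        refine (norm_inner_le_norm _ _).trans ?_
        rw [mul_comm]
        refine mul_le_mul_of_nonneg_right ?_ (norm_nonneg _)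
        rw [norm_sub_rev]
        exact hYd y
      · rw [Set.indicator_of_notMem hy,
          image_eq_zero_of_notMem_tsupport (fun h' => hy (hζK h')),
          image_eq_zero_of_notMem_tsupport (fun h' => hy (hYK h'))]
        simp
    · rw [integral_indicator hK.measurableSet, integral_const_mul, hWdef]
  have h3 : ε / (W + 1) * W ≤ ε := by
    rw [div_mul_eq_mul_div, div_le_iff₀ (by positivity)]
    nlinarith
  have h4 : |∫ y, ⟪w y, ζ y⟫| ≤ |(∫ y, ⟪w y, ζ y⟫) - ∫ y, ⟪w y, Y y⟫| + |∫ y, ⟪w y, Y y⟫| := by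
    have := abs_add_le ((∫ y, ⟪w y, ζ y⟫) - ∫ y, ⟪w y, Y y⟫) (∫ y, ⟪w y, Y y⟫)
    rwa [sub_add_cancel] at this
  linarith

end Claimed.Agent.R322.Fit
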