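import Claimed.Agent.R322.Pack015

/-!
# Row 322, Fit/Pde: mollification of a vector measure   (architect helper281)

`(Ω, μ)` a finite measure space, `π : Ω → E m` measurable, `c : Ω → E n` integrable, `φ` a bump function at `0`, `ρ = φ.normed volume`.
`mol φ μ π c y = ∫ ρ (y - π q) • c q dμ(q)` is the density of `ρ ⋆ π_# (c μ)`: smooth, and close to `π_# (c μ)` against Lipschitz tests.

PLANS.
* `contDiff_mol`.  Either differentiate under the integral (all derivatives of `ρ` are bounded; `hasFDerivAt_integral_of_dominated_of_fderiv_le`, induction through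
  `contDiff_succ_iff_fderiv`, generalising `ρ` to a smooth bounded map with bounded derivatives and values in a normed space), or by Mathlib's convolution:
  truncate `c` is not needed if one uses `ν = map (fun q => (π q, c q)) μ` ... ; the first route is self-contained.
* `tsupport_mol_subset`: if `dist y x > r + φ.rOut` then `ρ (y - π q) = 0` or `c q = 0` for every `q` (`ContDiffBump.support_normed_eq`); the complement of the closed ball is open.
* `integral_norm_mol_le`: `norm_integral_le_integral_norm`, Tonelli (`integral_integral_swap` / `lintegral_lintegral_swap`), `∫ ρ (y - p) dy = 1` (`ContDiffBump.integral_normed`, `integral_sub_right_eq_self`).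
* `abs_integral_mol_sub_le`: Fubini: `∫ ⟪mol y, ψ y⟫ dy = ∫ ⟪c q, ∫ ρ (y - π q) • ψ y dy⟫ dμ`; `|∫ ρ (y - p) • ψ y dy - ψ p| = |∫ ρ (y - p) • (ψ y - ψ p) dy| ≤ L φ.rOut`
  (`ρ (y - p) ≠ 0 ⟹ |y - p| < φ.rOut`).
-/

set_option autoImplicit false

open scoped ENNReal ContDiff Topology RealInnerProductSpace
open MeasureTheory

namespace Claimed.Agent.R322.Fit

variable {m n : ℕ} {Ω : Type*} [MeasurableSpace Ω]

/-- the mollified vector measure. -/
noncomputable def mol (φ : ContDiffBump (0 : E m)) (μ : Measure Ω) (π : Ω → E m) (c : Ω → E n)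
    (y : E m) : E n :=
  ∫ q, φ.normed volume (y - π q) • c q ∂μ

/-! ### leaf L-Fit-Moll-smooth -/

theorem mol_rho_bound (φ : ContDiffBump (0 : E m)) :
    ∃ C : ℝ, ∀ x, ‖φ.normed volume x‖ ≤ C :=
  (φ.continuous_normed (μ := volume)).bounded_above_of_compact_support φ.hasCompactSupport_normed

theorem mol_aesm (φ : ContDiffBump (0 : E m)) (μ : Measure Ω) {π : Ω → E m}
    (hπ : Measurable π) (y : E m) :
    AEStronglyMeasurable (fun q => φ.normed volume (y - π q)) μ :=
  ((φ.continuous_normed (μ := volume)).measurable.comp (measurable_const.sub hπ)).aestronglyMeasurable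

theorem mol_integrable (φ : ContDiffBump (0 : E m)) (μ : Measure Ω) {π : Ω → E m}
    (hπ : Measurable π) {V : Type*} [NormedAddCommGroup V] [NormedSpace ℝ V] {c : Ω → V}
    (hc : Integrable c μ) (y : E m) :
    Integrable (fun q => φ.normed volume (y - π q) • c q) μ := by
  obtain ⟨C, hC⟩ := mol_rho_bound φ
  refine (hc.norm.const_mul C).mono' ((mol_aesm φ μ hπ y).smul hc.aestronglyMeasurable)
    (Filter.Eventually.of_forall fun q => ?_)
  rw [norm_smul]
  exact mul_le_mul_of_nonneg_right (hC _) (norm_nonneg _)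

/-- the positive scalar case: a convolution with a finite measure. -/
theorem mol_contDiff_pos (φ : ContDiffBump (0 : E m)) (μ : Measure Ω) {π : Ω → E m}
    (hπ : Measurable π) {h : Ω → ℝ} (hh : Integrable h μ) :
    ContDiff ℝ ∞ (fun y => ∫ q, φ.normed volume (y - π q) * ((h q).toNNReal : ℝ) ∂μ) := by
  have hfin : IsFiniteMeasure (μ.withDensity fun q => ENNReal.ofReal (h q)) :=
    isFiniteMeasure_withDensity_ofReal hh.2
  have hfin2 : IsFiniteMeasure ((μ.withDensity fun q => ENNReal.ofReal (h q)).map π) :=
    inferInstance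
  have key := HasCompactSupport.contDiff_convolution_right (𝕜 := ℝ) (n := ⊤)
    (f := fun _ : E m => (1 : ℝ)) (g := φ.normed volume)
    (μ := (μ.withDensity fun q => ENNReal.ofReal (h q)).map π)
    (ContinuousLinearMap.mul ℝ ℝ) φ.hasCompactSupport_normed
    (integrable_const (1 : ℝ)).locallyIntegrable φ.contDiff_normed
  have e : (fun y => ∫ q, φ.normed volume (y - π q) * ((h q).toNNReal : ℝ) ∂μ)
      = convolution (fun _ : E m => (1 : ℝ)) (φ.normed volume) (ContinuousLinearMap.mul ℝ ℝ)
        ((μ.withDensity fun q => ENNReal.ofReal (h q)).map π) := by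
    funext y
    symm
    unfold convolution
    rw [integral_map hπ.aemeasurable]
    · have := integral_withDensity_eq_integral_smul₀ (μ := μ) (f := fun q => (h q).toNNReal)
        (hh.aemeasurable.real_toNNReal) (fun q => φ.normed volume (y - π q))
      simp only [ContinuousLinearMap.mul_apply', one_mul]
      rw [show (fun q => ENNReal.ofReal (h q))
        = fun q => (((h q).toNNReal : NNReal) : ℝ≥0∞) from rfl, this]
      refine integral_congr_ae (Filter.Eventually.of_forall fun q => ?_)
      simp only [NNReal.smul_def, smul_eq_mul]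
      ring
    · simp only [ContinuousLinearMap.mul_apply', one_mul]
      exact ((φ.continuous_normed (μ := volume)).comp
        (continuous_const.sub continuous_id)).aestronglyMeasurable
  rw [e]
  exact key

theorem mol_contDiff_real (φ : ContDiffBump (0 : E m)) (μ : Measure Ω) {π : Ω → E m}
    (hπ : Measurable π) {h : Ω → ℝ} (hh : Integrable h μ) :
    ContDiff ℝ ∞ (fun y => ∫ q, φ.normed volume (y - π q) * h q ∂μ) := by
  have h1 := mol_contDiff_pos φ μ hπ hh
  have h2 := mol_contDiff_pos φ μ hπ hh.neg
  have e : (fun y => ∫ q, φ.normed volume (y - π q) * h q ∂μ)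
      = fun y => (∫ q, φ.normed volume (y - π q) * ((h q).toNNReal : ℝ) ∂μ)
        - ∫ q, φ.normed volume (y - π q) * (((-h) q).toNNReal : ℝ) ∂μ := by
    funext y
    have i1 := mol_integrable φ μ hπ hh.real_toNNReal y
    have i2 := mol_integrable φ μ hπ hh.neg.real_toNNReal y
    simp only [smul_eq_mul] at i1 i2
    rw [← integral_sub i1 i2]
    refine integral_congr_ae (Filter.Eventually.of_forall fun q => ?_)
    simp only [Pi.neg_apply, Real.coe_toNNReal']
    rw [← mul_sub, max_zero_sub_eq_self]
  rw [e]
  exact h1.sub h2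

theorem contDiff_mol (φ : ContDiffBump (0 : E m)) (μ : Measure Ω) [IsFiniteMeasure μ] {π : Ω → E m}
    (hπ : Measurable π) {c : Ω → E n} (hc : Integrable c μ) : ContDiff ℝ ∞ (mol φ μ π c) := by
  rw [contDiff_euclidean]
  intro i
  have hi : Integrable (fun q => c q i) μ :=
    (EuclideanSpace.proj (𝕜 := ℝ) i).integrable_comp hc
  have e : (fun y => mol φ μ π c y i) = fun y => ∫ q, φ.normed volume (y - π q) * c q i ∂μ := by
    funext y
    have := (EuclideanSpace.proj (𝕜 := ℝ) i).integral_comp_comm (mol_integrable φ μ hπ hc y)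
    simp only [EuclideanSpace.coe_proj, PiLp.smul_apply, smul_eq_mul] at this
    rw [this]
    rfl
  rw [e]
  exact mol_contDiff_real φ μ hπ hi

theorem tsupport_mol_subset (φ : ContDiffBump (0 : E m)) (μ : Measure Ω) {π : Ω → E m}
    {c : Ω → E n} {x : E m} {r : ℝ} (h0 : ∀ q, π q ∉ Metric.closedBall x r → c q = 0) :
    tsupport (mol φ μ π c) ⊆ Metric.closedBall x (r + φ.rOut) := by
  refine closure_minimal (fun y hy => ?_) Metric.isClosed_closedBall
  by_contra hcon
  apply hy
  unfold mol
  refine integral_eq_zero_of_ae (Filter.Eventually.of_forall fun q => ?_)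
  by_cases hq : π q ∈ Metric.closedBall x r
  · have h1 : y - π q ∉ Function.support (φ.normed volume) := by
      rw [ContDiffBump.support_normed_eq, Metric.mem_ball, dist_zero_right, not_lt]
      rw [Metric.mem_closedBall] at hq hcon
      rw [not_le] at hcon
      have h2 : dist y x ≤ dist y (π q) + dist (π q) x := dist_triangle _ _ _
      rw [dist_eq_norm y (π q)] at h2
      linarith
    rw [Function.notMem_support] at h1
    simp [h1]
  · simp [h0 q hq]


/-! ### leaf L-Fit-Moll-dual -/

theorem mol_integral_rho (φ : ContDiffBump (0 : E m)) (p : E m) :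
    ∫ y, φ.normed volume (y - p) = 1 := by
  rw [integral_sub_right_eq_self (fun y => φ.normed volume y) p]
  exact φ.integral_normed

theorem mol_integral_norm (φ : ContDiffBump (0 : E m)) (p : E m) {V : Type*}
    [NormedAddCommGroup V] [NormedSpace ℝ V] (w : V) :
    ∫ y, ‖φ.normed volume (y - p) • w‖ = ‖w‖ := by
  have : (fun y => ‖φ.normed volume (y - p) • w‖) = fun y => φ.normed volume (y - p) * ‖w‖ := by
    funext y
    rw [norm_smul, Real.norm_of_nonneg (φ.nonneg_normed _)]
  rw [this, integral_mul_const, mol_integral_rho, one_mul]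

/-- joint integrability. -/
theorem mol_integrable_prod (φ : ContDiffBump (0 : E m)) (μ : Measure Ω) [IsFiniteMeasure μ]
    {π : Ω → E m} (hπ : Measurable π) {c : Ω → E n} (hc : Integrable c μ) :
    Integrable (fun p : E m × Ω => φ.normed volume (p.1 - π p.2) • c p.2)
      ((volume : Measure (E m)).prod μ) := by
  have hm : AEStronglyMeasurable (fun p : E m × Ω => φ.normed volume (p.1 - π p.2) • c p.2)
      ((volume : Measure (E m)).prod μ) :=
    ((φ.continuous_normed (μ := volume)).measurable.comp
      (measurable_fst.sub (hπ.comp measurable_snd))).aestronglyMeasurable.smul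
      hc.aestronglyMeasurable.comp_snd
  rw [integrable_prod_iff' hm]
  refine ⟨Filter.Eventually.of_forall fun q => ?_, ?_⟩
  · exact (φ.integrable_normed.comp_sub_right (π q)).smul_const (c q)
  · simp only [mol_integral_norm]
    exact hc.norm

theorem integral_norm_mol_le (φ : ContDiffBump (0 : E m)) (μ : Measure Ω) [IsFiniteMeasure μ]
    {π : Ω → E m} (hπ : Measurable π) {c : Ω → E n} (hc : Integrable c μ) :
    ∫ y, ‖mol φ μ π c y‖ ≤ ∫ q, ‖c q‖ ∂μ := by
  have hF := mol_integrable_prod φ μ hπ hc
  calc ∫ y, ‖mol φ μ π c y‖ ≤ ∫ y, ∫ q, ‖φ.normed volume (y - π q) • c q‖ ∂μ :=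
        integral_mono_of_nonneg (Filter.Eventually.of_forall fun y => norm_nonneg _)
          hF.norm.integral_prod_left
          (Filter.Eventually.of_forall fun y => norm_integral_le_integral_norm _)
    _ = ∫ q, (∫ y, ‖φ.normed volume (y - π q) • c q‖) ∂μ :=
        integral_integral_swap (f := fun y q => ‖φ.normed volume (y - π q) • c q‖) hF.norm
    _ = ∫ q, ‖c q‖ ∂μ := by simp only [mol_integral_norm]


/-- the mollified measure is close to the measure against bounded Lipschitz tests. -/
theorem abs_integral_mol_sub_le (φ : ContDiffBump (0 : E m)) (μ : Measure Ω) [IsFiniteMeasure μ]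
    {π : Ω → E m} (hπ : Measurable π) {c : Ω → E n} (hc : Integrable c μ) {ψ : E m → E n} {L : ℝ}
    (hL : 0 ≤ L)
    (hψ : ∀ y y', ‖ψ y - ψ y'‖ ≤ L * ‖y - y'‖) (hψc : HasCompactSupport ψ) :
    |(∫ y, ⟪mol φ μ π c y, ψ y⟫) - ∫ q, ⟪c q, ψ (π q)⟫ ∂μ| ≤ φ.rOut * L * ∫ q, ‖c q‖ ∂μ := by
  have hF := mol_integrable_prod φ μ hπ hc
  have hψcont : Continuous ψ := by
    have : LipschitzWith L.toNNReal ψ := LipschitzWith.of_dist_le_mul fun y y' => by
      rw [dist_eq_norm, dist_eq_norm, Real.coe_toNNReal _ hL]; exact hψ y y'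
    exact this.continuous
  obtain ⟨M, hM⟩ := hψcont.bounded_above_of_compact_support hψc
  -- the joint integrand
  have hG : Integrable (fun p : E m × Ω => φ.normed volume (p.1 - π p.2) * ⟪c p.2, ψ p.1⟫)
      ((volume : Measure (E m)).prod μ) := by
    have e : (fun p : E m × Ω => φ.normed volume (p.1 - π p.2) * ⟪c p.2, ψ p.1⟫)
        = fun p : E m × Ω => ⟪φ.normed volume (p.1 - π p.2) • c p.2, ψ p.1⟫ := by
      funext p; rw [real_inner_smul_left]
    rw [e]
    refine (hF.norm.mul_const M).mono'
      (hF.aestronglyMeasurable.inner (hψcont.measurable.comp measurable_fst).aestronglyMeasurable)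
      (Filter.Eventually.of_forall fun p => ?_)
    exact (norm_inner_le_norm _ _).trans (mul_le_mul_of_nonneg_left (hM _) (norm_nonneg _))
  have e1 : ∫ y, ⟪mol φ μ π c y, ψ y⟫
      = ∫ q, (∫ y, φ.normed volume (y - π q) * ⟪c q, ψ y⟫) ∂μ := by
    rw [← integral_integral_swap (f := fun y q => φ.normed volume (y - π q) * ⟪c q, ψ y⟫) hG]
    refine integral_congr_ae (Filter.Eventually.of_forall fun y => ?_)
    simp only
    unfold mol
    rw [real_inner_comm, ← integral_inner (mol_integrable φ μ hπ hc y)]
    refine integral_congr_ae (Filter.Eventually.of_forall fun q => ?_)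
    simp only
    rw [real_inner_comm, real_inner_smul_left]
  have hi1 : Integrable (fun q => ∫ y, φ.normed volume (y - π q) * ⟪c q, ψ y⟫) μ :=
    hG.integral_prod_right
  have hi2 : Integrable (fun q => ⟪c q, ψ (π q)⟫) μ := by
    refine (hc.norm.mul_const M).mono'
      (hc.aestronglyMeasurable.inner (hψcont.measurable.comp hπ).aestronglyMeasurable)
      (Filter.Eventually.of_forall fun q => ?_)
    exact (norm_inner_le_norm _ _).trans (mul_le_mul_of_nonneg_left (hM _) (norm_nonneg _))
  rw [e1, ← integral_sub hi1 hi2, ← integral_const_mul, ← Real.norm_eq_abs]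
  refine norm_integral_le_of_norm_le (hc.norm.const_mul _)
    (Filter.Eventually.of_forall fun q => ?_)
  -- one fibre
  have hρi : Integrable (fun y => φ.normed volume (y - π q)) :=
    φ.integrable_normed.comp_sub_right (π q)
  have hiA : Integrable (fun y => φ.normed volume (y - π q) * ⟪c q, ψ y⟫) := by
    refine (((φ.continuous_normed (μ := volume)).comp (continuous_id.sub continuous_const)).mul
      (continuous_const.inner hψcont)).integrable_of_hasCompactSupport ?_
    exact (hψc.comp_left (g := fun v => ⟪c q, v⟫) (inner_zero_right _)).mul_left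
  have e2 : ⟪c q, ψ (π q)⟫ = ∫ y, φ.normed volume (y - π q) * ⟪c q, ψ (π q)⟫ := by
    rw [integral_mul_const, mol_integral_rho, one_mul]
  rw [e2, ← integral_sub hiA (hρi.mul_const _)]
  have e3 : φ.rOut * L * ‖c q‖ = ∫ y, φ.normed volume (y - π q) * (φ.rOut * L * ‖c q‖) := by
    rw [integral_mul_const, mol_integral_rho, one_mul]
  rw [e3]
  refine norm_integral_le_of_norm_le (hρi.mul_const _) (Filter.Eventually.of_forall fun y => ?_)
  rw [← mul_sub, ← inner_sub_right, norm_mul, Real.norm_of_nonneg (φ.nonneg_normed _)]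
  by_cases hy : y - π q ∈ Function.support (φ.normed volume)
  · refine mul_le_mul_of_nonneg_left ?_ (φ.nonneg_normed _)
    rw [ContDiffBump.support_normed_eq, Metric.mem_ball, dist_zero_right] at hy
    calc ‖⟪c q, ψ y - ψ (π q)⟫‖ ≤ ‖c q‖ * ‖ψ y - ψ (π q)‖ := norm_inner_le_norm _ _
      _ ≤ ‖c q‖ * (L * φ.rOut) :=
          mul_le_mul_of_nonneg_left ((hψ _ _).trans (mul_le_mul_of_nonneg_left hy.le hL))
            (norm_nonneg _)
      _ = _ := by ring
  · rw [Function.notMem_support] at hy
    rw [hy, zero_mul, zero_mul]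


end Claimed.Agent.R322.Fit
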