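import Claimed.Agent.R322.Pack058

/-!
# Row 322, Fit/Pde: Wiener bounds of the coefficients of the difference equation; the Newton remainder   (architect helper281)

Throughout `r` is the order of the coefficients (`r = s - 2` in the applications), `S_i = sAl (r+1) ℓ f_i` the slope norms.

* `metric_inv` : `Y = G - 1 ∈ A^r`, `∑ nAl r ℓ Y ≤ 2 (sAl r ℓ f)²` if the slopes are small.
* `pairCoef_small` : `(pairCoef f₁ f₂).Reg r`, `sizel r ℓ ≤ C (S₁ + S₂)²`.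
* `pairCoef_lip` : the coefficients are Lipschitz in `f₁`.
* `newton` : `mssOp (u + v) = mssOp u + (pairCoef u u).op v + Q`, `ℓ vAl r ℓ Q ≤ C (S_u + S_v) S_v²`, `Q` GLOBAL.

PLANS.
* `metric_inv`.  `σ₀ = 1 / (2^{r+1} (m+1))` or smaller.  `N_ad = ∑_α P_αa P_αd ∈ A^r`, `∑ nAl r ℓ N ≤ (sAl r ℓ f)²` (`nAl_sum_le`, `nAl_mul_le`, and
  `∑_{a,d,α} x_αa x_αd ≤ (∑ x)²`).  A priori: `Yc f a b ∈ C^{m+1}_c` (`contDiff_Gc`, `hasCompactSupport_Yc`, `VIn.contDiff`, `m + 2 ≤ r + 1`), so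
  `InA 0` by `InA.of_contDiff`.  `inverse_step r` with `a₀ = δ`, `K = 1`, `S = -N`, equation `Yc_eq`, smallness: `nA 0 = nAl 0 ℓ ≤ nAl r ℓ`.
  Quantitative: `X = ∑ nAl r ℓ Y < ∞` (`InA.nAl_lt_top`), `X ≤ ν + ν X` from `Yc_eq`, `ν ≤ 1/2`, `ennreal_absorb`.
* `isMul_Gc`: `Gc = δ + Yc`, `IsMul.const`, `IsMul.of_InA`, `IsMul.add`, `IsMul.mono`.
* `Tc_bound`: `IsMul.inA`, `IsMul.le`, `InA.sum`, `nAl_sum_le`.
* `B_bound`: `cx_pairCoef_B`; every summand is `(multiplier) * (element T) * (element H)`; count the terms crudely (every factor `≤` its total).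
* `Gc_sub_bound`, `Tc_sub_bound`, `B_sub_bound`: the same with `Gc_sub`, and
  `Tc f₁ - Tc f₁' = ∑_b ((Gc f₁ - Gc f₁') Pc f₁ + Gc f₁' (Pc f₁ - Pc f₁'))`.
-/

set_option autoImplicit false

open scoped ENNReal ContDiff Topology FourierTransform RealInnerProductSpace
open MeasureTheory

namespace Claimed.Agent.R322.Fit

variable {m n : ℕ}

/-! ### elementary facts (proved) -/

theorem InA_Pc {r : ℕ} {f : E m → E n} (h : VIn (r + 1) f) (α : Fin n) (a : Fin m) :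
    InA r (Pc f α a) := (h.pdv a) α

theorem InA_Hc {r : ℕ} {f : E m → E n} (h : VIn (r + 2) f) (α : Fin n) (c d : Fin m) :
    InA r (Hc f α c d) := ((VIn.pdv (r := r + 1) h d).pdv c) α

theorem nAl_Pc_le (r : ℕ) (ℓ : ℝ) (f : E m → E n) (α : Fin n) (a : Fin m) :
    nAl r ℓ (Pc f α a) ≤ sAl r ℓ f := by
  refine le_trans ?_ (Finset.single_le_sum (f := fun a => vAl r ℓ (pdv a f)) (fun _ _ => zero_le)
    (Finset.mem_univ a))
  exact Finset.single_le_sum (f := fun α => nAl r ℓ (Boot.cxv (pdv a f) α)) (fun _ _ => zero_le)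
    (Finset.mem_univ α)

theorem nAl_Hc_le (r : ℕ) {ℓ : ℝ} (hℓ : 0 < ℓ) {f : E m → E n} (h : VIn 2 f) (α : Fin n)
    (c d : Fin m) :
    ENNReal.ofReal ℓ * nAl r ℓ (Hc f α c d) ≤ ENNReal.ofReal (2 * Real.pi) * sAl (r + 1) ℓ f := by
  have h1 : nAl r ℓ (Hc f α c d) ≤ vAl r ℓ (pdv c (pdv d f)) :=
    Finset.single_le_sum (f := fun α => nAl r ℓ (Boot.cxv (pdv c (pdv d f)) α))
      (fun _ _ => zero_le) (Finset.mem_univ α)
  refine (mul_le_mul' le_rfl h1).trans ((vAl_pdv_pdv_le r hℓ h c d).trans ?_)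
  exact mul_le_mul' le_rfl (Finset.single_le_sum (f := fun a => vAl (r + 1) ℓ (pdv a f))
    (fun _ _ => zero_le) (Finset.mem_univ d))

theorem Coef.Reg.sub {c c' : Coef m n} {r : ℕ} (hc : c.Reg r) (hc' : c'.Reg r) :
    (c.sub c').Reg r := by
  constructor
  · intro a b
    have : (c.sub c').toC.Y a b = fun y => c.toC.Y a b y - c'.toC.Y a b y := by
      funext y
      simp [Coef.sub, Coef.toC, cx]
    rw [this]
    exact (hc.Y a b).sub (hc'.Y a b)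
  · intro e α γ
    have : (c.sub c').toC.B e α γ = fun y => c.toC.B e α γ y - c'.toC.B e α γ y := by
      funext y
      simp [Coef.sub, Coef.toC, cx]
    rw [this]
    exact (hc.B e α γ).sub (hc'.B e α γ)

/-! ### leaf L-Fit-MssW-inv -/

/-- `∑_{a,d,α} x_αa x_αd ≤ (∑ x)²`. -/
theorem mwi_sum_sq_le (x : Fin m → Fin n → ℝ≥0∞) :
    ∑ a, ∑ d, ∑ α, x a α * x d α ≤ (∑ a, ∑ α, x a α) ^ 2 := by
  rw [sq, Finset.sum_mul_sum]
  refine Finset.sum_le_sum fun a _ => Finset.sum_le_sum fun d _ => ?_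
  rw [Finset.sum_mul_sum]
  refine Finset.sum_le_sum fun α _ => ?_
  exact Finset.single_le_sum (f := fun β => x a α * x d β) (fun _ _ => bot_le) (Finset.mem_univ α)

/-- the entries of `p† p`. -/
noncomputable def Nc (f : E m → E n) (a d : Fin m) (y : E m) : ℂ := ∑ α, Pc f α a y * Pc f α d y

theorem InA_Nc {r : ℕ} {f : E m → E n} (h : VIn (r + 1) f) (a d : Fin m) : InA r (Nc f a d) :=
  InA.sum _ fun α _ => (InA_Pc h α a).mul (InA_Pc h α d)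

theorem sum_nAl_Nc_le {r : ℕ} {ℓ : ℝ} (hℓ : 0 < ℓ) {f : E m → E n} (h : VIn (r + 1) f) :
    ∑ a, ∑ d, nAl r ℓ (Nc f a d) ≤ (sAl r ℓ f) ^ 2 := by
  refine le_trans ?_ (mwi_sum_sq_le fun a α => nAl r ℓ (Pc f α a))
  refine Finset.sum_le_sum fun a _ => Finset.sum_le_sum fun d _ => ?_
  refine (nAl_sum_le r ℓ _ fun α _ => ((InA_Pc h α a).mul (InA_Pc h α d)).integrable).trans
    (Finset.sum_le_sum fun α _ => ?_)
  exact nAl_mul_le r hℓ ((InA_Pc h α a).mono (Nat.zero_le _)) ((InA_Pc h α d).mono (Nat.zero_le _))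

theorem InA_zero_Yc {r : ℕ} (hr : m + 1 ≤ r) {f : E m → E n} (h : VIn (r + 1) f) (a b : Fin m) :
    InA 0 (Yc f a b) := by
  refine InA.of_contDiff ?_ (hasCompactSupport_Yc h.hasCompactSupport a b)
  have h1 : ContDiff ℝ r (Gc f a b) := contDiff_Gc h.contDiff a b
  have h2 : ContDiff ℝ r (Yc f a b) := h1.sub contDiff_const
  exact h2.of_le (by exact_mod_cast (by omega : 0 + m + 1 ≤ r))

/-- the inverse metric in the Wiener scale. -/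
theorem metric_inv (m n r : ℕ) (hr : m + 1 ≤ r) : ∃ σ₀ : ℝ, 0 < σ₀ ∧ σ₀ ≤ 1 / 2 ∧
    ∀ (f : E m → E n) (ℓ : ℝ), 0 < ℓ → VIn (r + 1) f → sAl r ℓ f ≤ ENNReal.ofReal σ₀ →
      (∀ a b, InA r (Yc f a b)) ∧ ∑ a, ∑ b, nAl r ℓ (Yc f a b) ≤ 2 * (sAl r ℓ f) ^ 2 := by
  have hD : (0 : ℝ) < 2 ^ (r + 1) * (m + 1) := by positivity
  have hD2 : (2 : ℝ) ≤ 2 ^ (r + 1) * (m + 1) := by
    have h1 : (2 : ℝ) ≤ 2 ^ (r + 1) := by
      calc (2 : ℝ) = 2 ^ 1 := (pow_one 2).symm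
        _ ≤ 2 ^ (r + 1) := pow_le_pow_right₀ (by norm_num) (by omega)
    have h2 : (1 : ℝ) ≤ (m : ℝ) + 1 := by
      have : (0 : ℝ) ≤ m := Nat.cast_nonneg m
      linarith
    nlinarith
  refine ⟨1 / (2 ^ (r + 1) * (m + 1)), by positivity, ?_, ?_⟩
  · exact one_div_le_one_div_of_le (by norm_num) hD2
  intro f ℓ hℓ hf hs
  obtain ⟨σ, hσ⟩ : ∃ σ : ℝ, σ = 1 / (2 ^ (r + 1) * (m + 1)) := ⟨_, rfl⟩
  rw [← hσ] at hs
  have hσ0 : 0 < σ := by rw [hσ]; positivity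
  have hc1 : ContDiff ℝ 1 f := hf.contDiff.of_le (by exact_mod_cast Nat.le_add_left 1 r)
  have hν := sum_nAl_Nc_le hℓ hf
  have hs2 : (sAl r ℓ f) ^ 2 ≤ ENNReal.ofReal (σ ^ 2) := by
    rw [ENNReal.ofReal_pow hσ0.le]
    exact pow_le_pow_left' hs 2
  -- numerics
  have hnum : 2 ^ r * 1 * (m : ℝ) ^ 2 * σ ^ 2 ≤ 1 / 2 := by
    have e : 2 ^ r * 1 * (m : ℝ) ^ 2 * σ ^ 2
        = ((m : ℝ) ^ 2 / ((m : ℝ) + 1) ^ 2) * (1 / (4 * 2 ^ r)) := by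
      rw [hσ]
      field_simp
      ring
    rw [e]
    have h1 : (m : ℝ) ^ 2 / ((m : ℝ) + 1) ^ 2 ≤ 1 := by
      rw [div_le_one (by positivity)]
      have : (0 : ℝ) ≤ m := Nat.cast_nonneg m
      nlinarith
    have h2 : 1 / (4 * 2 ^ r : ℝ) ≤ 1 / 2 := by
      apply one_div_le_one_div_of_le (by norm_num)
      have : (1 : ℝ) ≤ 2 ^ r := one_le_pow₀ (by norm_num)
      linarith
    calc _ ≤ 1 * (1 / 2 : ℝ) := mul_le_mul h1 h2 (by positivity) (by norm_num)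
      _ = 1 / 2 := one_mul _
  have hσ4 : σ ^ 2 ≤ 1 / 2 := by
    have h1 : σ ≤ 1 / 2 := by
      rw [hσ]
      exact one_div_le_one_div_of_le (by norm_num) hD2
    nlinarith
  have hhalf : ENNReal.ofReal (1 / 2) = 1 / 2 := by
    rw [ENNReal.ofReal_div_of_pos (by norm_num)]
    simp
  -- qualitative part
  have hstep := inverse_step (m := m) r (Y := Yc f) (S := fun a b y => - Nc f a b y) (N := Nc f)
    (a₀ := fun a d => if a = d then 1 else 0) (K := 1)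
    (fun a c => by split_ifs <;> simp)
    (InA_zero_Yc hr hf) (InA_Nc hf) (fun a c => (InA_Nc hf a c).neg)
    (fun a c y => by
      have e2 : ∑ d, ∑ e, (((if a = d then 1 else 0 : ℝ)) : ℂ) * Nc f d e y * Yc f e c y
          = ∑ e, Nc f a e y * Yc f e c y := by
        rw [Finset.sum_eq_single a]
        · simp
        · intro b _ hb
          simp [Ne.symm hb]
        · simp
      rw [e2, Yc_eq hc1 a c y]
      rfl)
    (by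
      have h0 : ∑ a, ∑ c, nA 0 (Nc f a c) ≤ ENNReal.ofReal (σ ^ 2) := by
        refine le_trans ?_ (hν.trans hs2)
        refine Finset.sum_le_sum fun a _ => Finset.sum_le_sum fun c _ => ?_
        rw [← nAl_zero ℓ]
        exact nAl_mono (Nat.zero_le r) hℓ.le _
      refine (mul_le_mul' le_rfl h0).trans ?_
      rw [← ENNReal.ofReal_mul (by positivity), ← hhalf]
      exact ENNReal.ofReal_le_ofReal hnum)
  refine ⟨hstep.1, ?_⟩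
  have hY := hstep.1
  obtain ⟨X, hX⟩ : ∃ X, X = ∑ a, ∑ b, nAl r ℓ (Yc f a b) := ⟨_, rfl⟩
  obtain ⟨ν, hνd⟩ : ∃ ν, ν = ∑ a, ∑ d, nAl r ℓ (Nc f a d) := ⟨_, rfl⟩
  rw [← hνd] at hν
  rw [← hX]
  have hXt : X ≠ ⊤ := by
    rw [hX]
    exact (ENNReal.sum_lt_top.2 fun a _ => ENNReal.sum_lt_top.2 fun b _ =>
      (hY a b).nAl_lt_top hℓ.le).ne
  have hz : ∀ {g : E m → ℂ}, InA r g → InA 0 g := fun h => h.mono (Nat.zero_le r)
  have h1 : ∀ a b, nAl r ℓ (Yc f a b)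
      ≤ nAl r ℓ (Nc f a b) + ∑ d, nAl r ℓ (Nc f a d) * nAl r ℓ (Yc f d b) := by
    intro a b
    have e : Yc f a b = fun y => (- Nc f a b y) - ∑ d, Nc f a d y * Yc f d b y :=
      funext fun y => Yc_eq hc1 a b y
    conv_lhs => rw [e]
    have hT : ∀ d, InA r (fun y => Nc f a d y * Yc f d b y) := fun d => (InA_Nc hf a d).mul (hY d b)
    refine (nAl_sub_le r ℓ (InA_Nc hf a b).neg.integrable
      (InA.sum _ fun d _ => hT d).integrable).trans (add_le_add ?_ ?_)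
    · rw [nAl_neg]
    · refine (nAl_sum_le r ℓ _ fun d _ => (hT d).integrable).trans
        (Finset.sum_le_sum fun d _ => ?_)
      exact nAl_mul_le r hℓ (hz (InA_Nc hf a d)) (hz (hY d b))
  have h2 : X ≤ 1 / 2 * X + ν := by
    have h3 : ∑ a, ∑ b, ∑ d, nAl r ℓ (Nc f a d) * nAl r ℓ (Yc f d b) ≤ ν * X := by
      rw [hνd, Finset.sum_mul]
      refine Finset.sum_le_sum fun a _ => ?_
      rw [Finset.sum_comm, Finset.sum_mul]
      refine Finset.sum_le_sum fun d _ => ?_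
      rw [← Finset.mul_sum]
      refine mul_le_mul' le_rfl ?_
      rw [hX]
      exact Finset.single_le_sum (f := fun d => ∑ b, nAl r ℓ (Yc f d b)) (fun _ _ => bot_le)
        (Finset.mem_univ d)
    have hν2 : ν ≤ 1 / 2 := by
      refine hν.trans (hs2.trans ?_)
      rw [← hhalf]
      exact ENNReal.ofReal_le_ofReal hσ4
    calc X ≤ ∑ a, ∑ b, (nAl r ℓ (Nc f a b) + ∑ d, nAl r ℓ (Nc f a d) * nAl r ℓ (Yc f d b)) := by
          rw [hX]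
          exact Finset.sum_le_sum fun a _ => Finset.sum_le_sum fun b _ => h1 a b
      _ = ν + ∑ a, ∑ b, ∑ d, nAl r ℓ (Nc f a d) * nAl r ℓ (Yc f d b) := by
          simp only [Finset.sum_add_distrib]
          rw [hνd]
      _ ≤ ν + ν * X := add_le_add le_rfl h3
      _ ≤ ν + 1 / 2 * X := add_le_add le_rfl (mul_le_mul' hν2 le_rfl)
      _ = 1 / 2 * X + ν := add_comm _ _
  exact (ennreal_absorb hXt h2).trans (mul_le_mul' le_rfl hν)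

/-! ### leaf L-Fit-MssW-small -/

theorem isMul_Gc {r : ℕ} {ℓ : ℝ} (hℓ : 0 < ℓ) {f : E m → E n} {a b : Fin m}
    (hY : InA r (Yc f a b)) (h1 : nAl r ℓ (Yc f a b) ≤ 1) : IsMul r ℓ (Gc f a b) 2 := by
  have e : Gc f a b = fun y => (if a = b then (1 : ℂ) else 0) + Yc f a b y := by
    funext y
    simp [Yc]
  rw [e]
  refine ((IsMul.const r ℓ (if a = b then (1 : ℂ) else 0)).add (IsMul.of_InA hℓ hY)).mono ?_
  have h2 : ‖(if a = b then (1 : ℂ) else 0)‖ₑ ≤ 1 := by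
    split_ifs <;> simp
  calc _ ≤ (1 : ℝ≥0∞) + 1 := add_le_add h2 h1
    _ = 2 := by norm_num

theorem Tc_bound {r : ℕ} {ℓ : ℝ} {f : E m → E n} (hf : VIn (r + 1) f)
    (hG : ∀ a b, IsMul r ℓ (Gc f a b) 2) (γ : Fin n) (c : Fin m) :
    InA r (Tc f γ c) ∧ nAl r ℓ (Tc f γ c) ≤ 2 * sAl r ℓ f := by
  have hT : ∀ b, InA r (fun y => Gc f c b y * Pc f γ b y) := fun b => (hG c b).inA (InA_Pc hf γ b)
  refine ⟨InA.sum _ fun b _ => hT b, ?_⟩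
  refine (nAl_sum_le r ℓ _ fun b _ => (hT b).integrable).trans ?_
  unfold sAl
  rw [Finset.mul_sum]
  refine Finset.sum_le_sum fun b _ => ((hG c b).le (InA_Pc hf γ b)).trans (mul_le_mul' le_rfl ?_)
  exact Finset.single_le_sum (f := fun α => nAl r ℓ (Boot.cxv (pdv b f) α)) (fun _ _ => bot_le)
    (Finset.mem_univ γ)

theorem mws_term {r : ℕ} {ℓ : ℝ} (hℓ : 0 < ℓ) {G T H : E m → ℂ} {L P S S₂ : ℝ≥0∞}
    (hG : IsMul r ℓ G 2) (hT : InA r T) (hH : InA r H) (hTb : nAl r ℓ T ≤ 2 * S)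
    (hHb : L * nAl r ℓ H ≤ P * S₂) :
    InA r (fun y => G y * (T y * H y)) ∧
      L * nAl r ℓ (fun y => G y * (T y * H y)) ≤ 4 * P * (S * S₂) := by
  have h1 : InA r (fun y => T y * H y) := hT.mul hH
  refine ⟨hG.inA h1, ?_⟩
  calc L * nAl r ℓ (fun y => G y * (T y * H y))
      ≤ L * (2 * (nAl r ℓ T * nAl r ℓ H)) :=
        mul_le_mul' le_rfl ((hG.le h1).trans (mul_le_mul' le_rfl
          (nAl_mul_le r hℓ (hT.mono (Nat.zero_le _)) (hH.mono (Nat.zero_le _)))))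
    _ = 2 * (nAl r ℓ T * (L * nAl r ℓ H)) := by ring
    _ ≤ 2 * ((2 * S) * (P * S₂)) := mul_le_mul' le_rfl (mul_le_mul' hTb hHb)
    _ = 4 * P * (S * S₂) := by ring

theorem B_bound {r : ℕ} {ℓ : ℝ} (hℓ : 0 < ℓ) {f₁ f₂ : E m → E n} (h₁ : VIn (r + 2) f₁)
    (h₂ : VIn (r + 2) f₂) (hG₁ : ∀ a b, IsMul r ℓ (Gc f₁ a b) 2)
    (hG₂ : ∀ a b, IsMul r ℓ (Gc f₂ a b) 2) (e : Fin m) (α γ : Fin n) :
    InA r (cx ((pairCoef f₁ f₂).B e α γ)) ∧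
      ENNReal.ofReal ℓ * nAl r ℓ (cx ((pairCoef f₁ f₂).B e α γ))
        ≤ ENNReal.ofReal (8 * Real.pi * m ^ 2)
          * ((sAl (r + 1) ℓ f₁ + sAl (r + 1) ℓ f₂) * sAl (r + 1) ℓ f₂) := by
  have v₁ : VIn (r + 1) f₁ := h₁.mono (by omega)
  have v₂ : VIn (r + 1) f₂ := h₂.mono (by omega)
  have c₁ : ContDiff ℝ 1 f₁ := v₁.contDiff.of_le (by exact_mod_cast Nat.le_add_left 1 r)
  have c₂ : ContDiff ℝ 2 f₂ := h₂.contDiff.of_le (by exact_mod_cast Nat.le_add_left 2 r)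
  obtain ⟨S₁, hS₁⟩ : ∃ S, S = sAl (r + 1) ℓ f₁ := ⟨_, rfl⟩
  obtain ⟨S₂, hS₂⟩ : ∃ S, S = sAl (r + 1) ℓ f₂ := ⟨_, rfl⟩
  obtain ⟨L, hL⟩ : ∃ L : ℝ≥0∞, L = ENNReal.ofReal ℓ := ⟨_, rfl⟩
  obtain ⟨P, hP⟩ : ∃ P : ℝ≥0∞, P = ENNReal.ofReal (2 * Real.pi) := ⟨_, rfl⟩
  rw [← hS₁, ← hS₂, ← hL]
  have hT₁ : ∀ γ c, nAl r ℓ (Tc f₁ γ c) ≤ 2 * S₁ := fun γ c =>
    (Tc_bound v₁ hG₁ γ c).2.trans (mul_le_mul' le_rfl (hS₁ ▸ sAl_mono (Nat.le_succ r) hℓ.le f₁))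
  have hT₂ : ∀ γ c, nAl r ℓ (Tc f₂ γ c) ≤ 2 * S₂ := fun γ c =>
    (Tc_bound v₂ hG₂ γ c).2.trans (mul_le_mul' le_rfl (hS₂ ▸ sAl_mono (Nat.le_succ r) hℓ.le f₂))
  have hH : ∀ c d, L * nAl r ℓ (Hc f₂ α c d) ≤ P * S₂ := fun c d => by
    rw [hL, hP, hS₂]
    exact nAl_Hc_le r hℓ (h₂.mono (by omega)) α c d
  have t1 := fun c d => mws_term hℓ (hG₂ d e) (Tc_bound v₁ hG₁ γ c).1 (InA_Hc h₂ α c d)
    (hT₁ γ c) (hH c d)
  have t2 := fun c d => mws_term hℓ (hG₁ c e) (Tc_bound v₂ hG₂ γ d).1 (InA_Hc h₂ α c d)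
    (hT₂ γ d) (hH c d)
  have e1 : cx ((pairCoef f₁ f₂).B e α γ) = fun y =>
      (- ∑ c, ∑ d, Gc f₂ d e y * (Tc f₁ γ c y * Hc f₂ α c d y))
        - ∑ c, ∑ d, Gc f₁ c e y * (Tc f₂ γ d y * Hc f₂ α c d y) := by
    funext y
    rw [cx_pairCoef_B c₁ c₂ e α γ y]
    congr 1
    · congr 1
      exact Finset.sum_congr rfl fun c _ => Finset.sum_congr rfl fun d _ => by ring
    · exact Finset.sum_congr rfl fun c _ => Finset.sum_congr rfl fun d _ => by ring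
  have s1 : ∀ c, InA r (fun y => ∑ d, Gc f₂ d e y * (Tc f₁ γ c y * Hc f₂ α c d y)) := fun c =>
    InA.sum _ fun d _ => (t1 c d).1
  have s2 : ∀ c, InA r (fun y => ∑ d, Gc f₁ c e y * (Tc f₂ γ d y * Hc f₂ α c d y)) := fun c =>
    InA.sum _ fun d _ => (t2 c d).1
  have u1 : InA r (fun y => ∑ c, ∑ d, Gc f₂ d e y * (Tc f₁ γ c y * Hc f₂ α c d y)) :=
    InA.sum _ fun c _ => s1 c
  have u2 : InA r (fun y => ∑ c, ∑ d, Gc f₁ c e y * (Tc f₂ γ d y * Hc f₂ α c d y)) :=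
    InA.sum _ fun c _ => s2 c
  rw [e1]
  refine ⟨u1.neg.sub u2, ?_⟩
  have b1 : L * nAl r ℓ (fun y => ∑ c, ∑ d, Gc f₂ d e y * (Tc f₁ γ c y * Hc f₂ α c d y))
      ≤ ∑ _c : Fin m, ∑ _d : Fin m, 4 * P * (S₁ * S₂) := by
    refine (mul_le_mul' le_rfl (nAl_sum_le r ℓ _ fun c _ => (s1 c).integrable)).trans ?_
    rw [Finset.mul_sum]
    refine Finset.sum_le_sum fun c _ => ?_
    refine (mul_le_mul' le_rfl (nAl_sum_le r ℓ _ fun d _ => (t1 c d).1.integrable)).trans ?_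
    rw [Finset.mul_sum]
    exact Finset.sum_le_sum fun d _ => (t1 c d).2
  have b2 : L * nAl r ℓ (fun y => ∑ c, ∑ d, Gc f₁ c e y * (Tc f₂ γ d y * Hc f₂ α c d y))
      ≤ ∑ _c : Fin m, ∑ _d : Fin m, 4 * P * (S₂ * S₂) := by
    refine (mul_le_mul' le_rfl (nAl_sum_le r ℓ _ fun c _ => (s2 c).integrable)).trans ?_
    rw [Finset.mul_sum]
    refine Finset.sum_le_sum fun c _ => ?_
    refine (mul_le_mul' le_rfl (nAl_sum_le r ℓ _ fun d _ => (t2 c d).1.integrable)).trans ?_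
    rw [Finset.mul_sum]
    exact Finset.sum_le_sum fun d _ => (t2 c d).2
  have e3 : ENNReal.ofReal (8 * Real.pi * (m : ℝ) ^ 2) = 4 * P * (m : ℝ≥0∞) ^ 2 := by
    rw [hP, show (8 : ℝ) * Real.pi * (m : ℝ) ^ 2 = 4 * (2 * Real.pi) * (m : ℝ) ^ 2 by ring,
      ENNReal.ofReal_mul (by positivity), ENNReal.ofReal_mul (by positivity),
      ENNReal.ofReal_pow (by positivity), ENNReal.ofReal_natCast]
    simp
  calc L * nAl r ℓ (fun y => (- ∑ c, ∑ d, Gc f₂ d e y * (Tc f₁ γ c y * Hc f₂ α c d y))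
        - ∑ c, ∑ d, Gc f₁ c e y * (Tc f₂ γ d y * Hc f₂ α c d y))
      ≤ L * (nAl r ℓ (fun y => ∑ c, ∑ d, Gc f₂ d e y * (Tc f₁ γ c y * Hc f₂ α c d y))
          + nAl r ℓ (fun y => ∑ c, ∑ d, Gc f₁ c e y * (Tc f₂ γ d y * Hc f₂ α c d y))) := by
        refine mul_le_mul' le_rfl ((nAl_sub_le r ℓ u1.neg.integrable u2.integrable).trans ?_)
        rw [nAl_neg]
    _ ≤ ∑ _c : Fin m, ∑ _d : Fin m, 4 * P * (S₁ * S₂)
          + ∑ _c : Fin m, ∑ _d : Fin m, 4 * P * (S₂ * S₂) := by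
        rw [mul_add]
        exact add_le_add b1 b2
    _ = _ := by
        rw [e3]
        simp only [Finset.sum_const, Finset.card_univ, Fintype.card_fin, nsmul_eq_mul]
        ring

/-- **the coefficients are small if the slopes are small.** -/
theorem pairCoef_small (m n r : ℕ) (hr : m + 1 ≤ r) : ∃ σ₀ C : ℝ, 0 < σ₀ ∧ 0 ≤ C ∧
    ∀ (f₁ f₂ : E m → E n) (ℓ : ℝ), 0 < ℓ → VIn (r + 2) f₁ → VIn (r + 2) f₂ →
      sAl (r + 1) ℓ f₁ ≤ ENNReal.ofReal σ₀ → sAl (r + 1) ℓ f₂ ≤ ENNReal.ofReal σ₀ →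
      (pairCoef f₁ f₂).Reg r ∧
        (pairCoef f₁ f₂).sizel r ℓ
          ≤ ENNReal.ofReal C * (sAl (r + 1) ℓ f₁ + sAl (r + 1) ℓ f₂) ^ 2 := by
  obtain ⟨σ, hσ, hσ2, hinv⟩ := metric_inv m n r hr
  refine ⟨σ, 2 + m * (n * (n * (8 * Real.pi * m ^ 2))), hσ, by positivity, ?_⟩
  intro f₁ f₂ ℓ hℓ h₁ h₂ hS₁ hS₂
  have hmono : ∀ f : E m → E n, sAl r ℓ f ≤ sAl (r + 1) ℓ f :=
    fun f => sAl_mono (Nat.le_succ r) hℓ.le f
  have hmul : ∀ f : E m → E n, VIn (r + 2) f → sAl (r + 1) ℓ f ≤ ENNReal.ofReal σ →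
      ∀ a b, IsMul r ℓ (Gc f a b) 2 := by
    intro f hf hS a b
    have hs : sAl r ℓ f ≤ ENNReal.ofReal σ := (hmono f).trans hS
    obtain ⟨hY, hsum⟩ := hinv f ℓ hℓ (hf.mono (by omega)) hs
    refine isMul_Gc hℓ (hY a b) ?_
    have h1 : nAl r ℓ (Yc f a b) ≤ ∑ a, ∑ b, nAl r ℓ (Yc f a b) :=
      (Finset.single_le_sum (f := fun b => nAl r ℓ (Yc f a b)) (fun _ _ => bot_le)
        (Finset.mem_univ b)).trans
        (Finset.single_le_sum (f := fun a => ∑ b, nAl r ℓ (Yc f a b)) (fun _ _ => bot_le)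
          (Finset.mem_univ a))
    refine h1.trans (hsum.trans ?_)
    calc 2 * sAl r ℓ f ^ 2 ≤ 2 * (ENNReal.ofReal (1 / 2)) ^ 2 := by
          gcongr
          exact hs.trans (ENNReal.ofReal_le_ofReal hσ2)
      _ ≤ 1 := by
          rw [← ENNReal.ofReal_pow (by norm_num), ← ENNReal.ofReal_ofNat 2,
            ← ENNReal.ofReal_mul (by norm_num)]
          exact ENNReal.ofReal_le_one.2 (by norm_num)
  have hG₁ := hmul f₁ h₁ hS₁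
  have hG₂ := hmul f₂ h₂ hS₂
  obtain ⟨hY, hsum⟩ := hinv f₁ ℓ hℓ (h₁.mono (by omega)) ((hmono f₁).trans hS₁)
  have hB := fun e α γ => B_bound hℓ h₁ h₂ hG₁ hG₂ e α γ
  refine ⟨⟨fun a b => ?_, fun e α γ => (hB e α γ).1⟩, ?_⟩
  · show InA r (cx ((pairCoef f₁ f₂).Y a b))
    rw [cx_pairCoef_Y]
    exact hY a b
  obtain ⟨S₁, hS₁d⟩ : ∃ S, S = sAl (r + 1) ℓ f₁ := ⟨_, rfl⟩
  obtain ⟨S₂, hS₂d⟩ : ∃ S, S = sAl (r + 1) ℓ f₂ := ⟨_, rfl⟩
  obtain ⟨Q, hQ⟩ : ∃ Q : ℝ≥0∞, Q = ENNReal.ofReal (8 * Real.pi * (m : ℝ) ^ 2) := ⟨_, rfl⟩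
  rw [← hS₁d, ← hS₂d, ← hQ] at hB
  rw [← hS₁d, ← hS₂d]
  have e3 : ENNReal.ofReal (2 + m * (n * (n * (8 * Real.pi * (m : ℝ) ^ 2))))
      = 2 + (m : ℝ≥0∞) * (n * (n * Q)) := by
    rw [hQ, ENNReal.ofReal_add (by norm_num) (by positivity), ENNReal.ofReal_mul (by positivity),
      ENNReal.ofReal_mul (by positivity), ENNReal.ofReal_mul (by positivity),
      ENNReal.ofReal_natCast, ENNReal.ofReal_natCast]
    simp
  rw [e3]
  unfold Coef.sizel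
  have a1 : S₁ ≤ S₁ + S₂ := le_self_add
  have a2 : S₂ ≤ S₁ + S₂ := le_add_self
  calc ∑ a, ∑ b, nAl r ℓ (cx ((pairCoef f₁ f₂).Y a b))
        + ENNReal.ofReal ℓ * ∑ e, ∑ α, ∑ γ, nAl r ℓ (cx ((pairCoef f₁ f₂).B e α γ))
      ≤ 2 * S₁ ^ 2 + ∑ _e : Fin m, ∑ _α : Fin n, ∑ _γ : Fin n, Q * ((S₁ + S₂) * S₂) := by
        refine add_le_add ?_ ?_
        · simp only [cx_pairCoef_Y]
          refine hsum.trans (mul_le_mul' le_rfl (pow_le_pow_left' ?_ 2))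
          rw [hS₁d]
          exact hmono f₁
        · simp only [Finset.mul_sum]
          exact Finset.sum_le_sum fun e _ => Finset.sum_le_sum fun α _ =>
            Finset.sum_le_sum fun γ _ => (hB e α γ).2
    _ = 2 * S₁ ^ 2 + (m : ℝ≥0∞) * (n * (n * Q)) * ((S₁ + S₂) * S₂) := by
        simp only [Finset.sum_const, Finset.card_univ, Fintype.card_fin, nsmul_eq_mul]
        ring
    _ ≤ 2 * (S₁ + S₂) ^ 2 + (m : ℝ≥0∞) * (n * (n * Q)) * ((S₁ + S₂) * (S₁ + S₂)) := by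
        gcongr
    _ = _ := by ring

/-! ### leaf L-Fit-MssW-lip -/

/-- (helper of the leaf) a bounded element of `A^r` at scale `ℓ`. -/
def MwlB (r : ℕ) (ℓ : ℝ) (f : E m → ℂ) (K : ℝ≥0∞) : Prop := InA r f ∧ nAl r ℓ f ≤ K

theorem MwlB.mono {r : ℕ} {ℓ : ℝ} {f : E m → ℂ} {K K' : ℝ≥0∞} (h : MwlB r ℓ f K) (hK : K ≤ K') :
    MwlB r ℓ f K' := ⟨h.1, h.2.trans hK⟩

theorem MwlB.mul {r : ℕ} {ℓ : ℝ} (hℓ : 0 < ℓ) {f g : E m → ℂ} {K L : ℝ≥0∞} (hf : MwlB r ℓ f K)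
    (hg : MwlB r ℓ g L) : MwlB r ℓ (fun y => f y * g y) (K * L) :=
  ⟨hf.1.mul hg.1, (nAl_mul_le r hℓ (hf.1.mono (Nat.zero_le _)) (hg.1.mono (Nat.zero_le _))).trans
    (mul_le_mul' hf.2 hg.2)⟩

theorem MwlB.add {r : ℕ} {ℓ : ℝ} {f g : E m → ℂ} {K L : ℝ≥0∞} (hf : MwlB r ℓ f K)
    (hg : MwlB r ℓ g L) : MwlB r ℓ (fun y => f y + g y) (K + L) :=
  ⟨hf.1.add hg.1, (nAl_add_le r ℓ hf.1.integrable hg.1.integrable).trans (add_le_add hf.2 hg.2)⟩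

theorem MwlB.neg {r : ℕ} {ℓ : ℝ} {f : E m → ℂ} {K : ℝ≥0∞} (hf : MwlB r ℓ f K) :
    MwlB r ℓ (fun y => - f y) K := ⟨hf.1.neg, by rw [nAl_neg]; exact hf.2⟩

theorem MwlB.sum {r : ℕ} {ℓ : ℝ} {ι : Type*} (s : Finset ι) {f : ι → E m → ℂ} {K : ι → ℝ≥0∞}
    (h : ∀ i ∈ s, MwlB r ℓ (f i) (K i)) :
    MwlB r ℓ (fun y => ∑ i ∈ s, f i y) (∑ i ∈ s, K i) :=
  ⟨InA.sum s fun i hi => (h i hi).1, (nAl_sum_le r ℓ s fun i hi => (h i hi).1.integrable).trans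
    (Finset.sum_le_sum fun i hi => (h i hi).2)⟩

theorem IsMul.mwlB {r : ℕ} {ℓ : ℝ} {F f : E m → ℂ} {K L : ℝ≥0∞} (hF : IsMul r ℓ F K)
    (hf : MwlB r ℓ f L) : MwlB r ℓ (fun y => F y * f y) (K * L) :=
  ⟨hF.inA hf.1, (hF.le hf.1).trans (mul_le_mul' le_rfl hf.2)⟩

theorem mwl_Pc_sub {f₁ f₂ : E m → E n} (h₁ : ContDiff ℝ 1 f₁) (h₂ : ContDiff ℝ 1 f₂) (α : Fin n)
    (a : Fin m) :
    (fun y => Pc f₁ α a y - Pc f₂ α a y) = Pc (fun y => f₁ y - f₂ y) α a := by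
  funext y
  have e : fderiv ℝ (fun y => f₁ y - f₂ y) y = fderiv ℝ f₁ y - fderiv ℝ f₂ y :=
    fderiv_fun_sub (h₁.differentiable one_ne_zero y) (h₂.differentiable one_ne_zero y)
  simp [Pc, Boot.cxv, pdv, e]

theorem mwl_Pc {r : ℕ} (ℓ : ℝ) {f : E m → E n} (h : VIn (r + 1) f) (α : Fin n) (a : Fin m) :
    MwlB r ℓ (Pc f α a) (sAl r ℓ f) := ⟨InA_Pc h α a, nAl_Pc_le r ℓ f α a⟩

theorem mwl_Pc_sub_bd {r : ℕ} (ℓ : ℝ) {f₁ f₂ : E m → E n} (h₁ : VIn (r + 1) f₁)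
    (h₂ : VIn (r + 1) f₂) (α : Fin n) (a : Fin m) :
    MwlB r ℓ (fun y => Pc f₁ α a y - Pc f₂ α a y) (sAl r ℓ (fun y => f₁ y - f₂ y)) := by
  rw [mwl_Pc_sub (h₁.contDiff.of_le (by exact_mod_cast Nat.le_add_left 1 r))
    (h₂.contDiff.of_le (by exact_mod_cast Nat.le_add_left 1 r))]
  exact mwl_Pc ℓ (h₁.sub h₂) α a

theorem Gc_sub_bound {r : ℕ} {ℓ : ℝ} (hℓ : 0 < ℓ) {f₁ f₂ : E m → E n} (h₁ : VIn (r + 1) f₁)
    (h₂ : VIn (r + 1) f₂) (hG₁ : ∀ a b, IsMul r ℓ (Gc f₁ a b) 2)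
    (hG₂ : ∀ a b, IsMul r ℓ (Gc f₂ a b) 2) (a b : Fin m) :
    InA r (fun y => Gc f₁ a b y - Gc f₂ a b y) ∧
      nAl r ℓ (fun y => Gc f₁ a b y - Gc f₂ a b y)
        ≤ ENNReal.ofReal (4 * m ^ 2 * n)
          * ((sAl r ℓ f₁ + sAl r ℓ f₂) * sAl r ℓ (fun y => f₁ y - f₂ y)) := by
  have c₁ : ContDiff ℝ 1 f₁ := h₁.contDiff.of_le (by exact_mod_cast Nat.le_add_left 1 r)
  have c₂ : ContDiff ℝ 1 f₂ := h₂.contDiff.of_le (by exact_mod_cast Nat.le_add_left 1 r)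
  set S₁ := sAl r ℓ f₁ with hS₁
  set S₂ := sAl r ℓ f₂ with hS₂
  set Sd := sAl r ℓ (fun y => f₁ y - f₂ y) with hSd
  have hin : ∀ c d : Fin m, MwlB r ℓ (fun y => ∑ α, (Pc f₁ α c y * (Pc f₁ α d y - Pc f₂ α d y)
      + (Pc f₁ α c y - Pc f₂ α c y) * Pc f₂ α d y)) (∑ _α : Fin n, (S₁ * Sd + Sd * S₂)) := by
    intro c d
    refine MwlB.sum _ fun α _ => ?_
    exact ((mwl_Pc ℓ h₁ α c).mul hℓ (mwl_Pc_sub_bd ℓ h₁ h₂ α d)).add
      ((mwl_Pc_sub_bd ℓ h₁ h₂ α c).mul hℓ (mwl_Pc ℓ h₂ α d))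
  have hterm : ∀ c d : Fin m, MwlB r ℓ (fun y => Gc f₁ a c y
      * (∑ α, (Pc f₁ α c y * (Pc f₁ α d y - Pc f₂ α d y)
          + (Pc f₁ α c y - Pc f₂ α c y) * Pc f₂ α d y)) * Gc f₂ d b y)
      (2 * (2 * ∑ _α : Fin n, (S₁ * Sd + Sd * S₂))) := by
    intro c d
    have h := (hG₁ a c).mwlB ((hG₂ d b).mwlB (hin c d))
    have e : (fun y => Gc f₁ a c y
      * (∑ α, (Pc f₁ α c y * (Pc f₁ α d y - Pc f₂ α d y)
          + (Pc f₁ α c y - Pc f₂ α c y) * Pc f₂ α d y)) * Gc f₂ d b y)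
        = fun y => Gc f₁ a c y * (Gc f₂ d b y
          * ∑ α, (Pc f₁ α c y * (Pc f₁ α d y - Pc f₂ α d y)
          + (Pc f₁ α c y - Pc f₂ α c y) * Pc f₂ α d y)) := by
      funext y
      ring
    rw [e]
    exact h
  have hall := (MwlB.sum Finset.univ fun c _ => MwlB.sum Finset.univ fun d _ => hterm c d).neg
  have e2 : (fun y => Gc f₁ a b y - Gc f₂ a b y) = fun y => - ∑ c, ∑ d, Gc f₁ a c y
      * (∑ α, (Pc f₁ α c y * (Pc f₁ α d y - Pc f₂ α d y)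
          + (Pc f₁ α c y - Pc f₂ α c y) * Pc f₂ α d y)) * Gc f₂ d b y := by
    funext y
    exact Gc_sub c₁ c₂ a b y
  rw [e2]
  refine ⟨hall.1, hall.2.trans (le_of_eq ?_)⟩
  have e3 : ENNReal.ofReal (4 * (m : ℝ) ^ 2 * n) = 4 * (m : ℝ≥0∞) ^ 2 * n := by
    rw [ENNReal.ofReal_mul (by positivity), ENNReal.ofReal_mul (by positivity),
      ENNReal.ofReal_pow (by positivity), ENNReal.ofReal_natCast, ENNReal.ofReal_natCast]
    simp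
  rw [e3]
  simp only [Finset.sum_const, Finset.card_univ, Fintype.card_fin, nsmul_eq_mul]
  ring

theorem mwl_final (A P M N S₁ S₁' S₂ Sd : ℝ≥0∞) (h₁ : S₁ ≤ 1) (h₁' : S₁' ≤ 1) (h₂ : S₂ ≤ 1) :
    M * (M * (A * ((S₁ + S₁') * Sd)))
      + M * (N * (N * (M * (M * (2 * (M * (A * ((S₁ + S₁') * Sd) * S₁ + 2 * Sd))))
          + M * (M * (A * ((S₁ + S₁') * Sd) * (2 * S₂)))))) * (P * S₂)
    ≤ (M ^ 2 * A + M ^ 3 * N ^ 2 * (P * (2 * M * (2 * A + 2) + 2 * A)))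
        * ((S₁ + S₁' + S₂) * Sd) := by
  have a1 : S₁ + S₁' ≤ S₁ + S₁' + S₂ := le_self_add
  have a2 : S₂ ≤ S₁ + S₁' + S₂ := le_add_self
  have a3 : S₁ + S₁' ≤ 2 := by
    calc S₁ + S₁' ≤ 1 + 1 := add_le_add h₁ h₁'
      _ = 2 := by norm_num
  calc M * (M * (A * ((S₁ + S₁') * Sd)))
      + M * (N * (N * (M * (M * (2 * (M * (A * ((S₁ + S₁') * Sd) * S₁ + 2 * Sd))))
          + M * (M * (A * ((S₁ + S₁') * Sd) * (2 * S₂)))))) * (P * S₂)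
      = M * (M * (A * ((S₁ + S₁') * Sd)))
        + M * N * N * M * M * 2 * M * (A * ((S₁ + S₁') * Sd) * S₁ + 2 * Sd) * (P * S₂)
        + M * N * N * M * M * (A * ((S₁ + S₁') * Sd)) * (2 * S₂) * (P * S₂) := by ring
    _ ≤ M * (M * (A * ((S₁ + S₁' + S₂) * Sd)))
        + M * N * N * M * M * 2 * M * (A * (2 * Sd) * 1 + 2 * Sd) * (P * (S₁ + S₁' + S₂))
        + M * N * N * M * M * (A * ((S₁ + S₁' + S₂) * Sd)) * (2 * 1) * (P * 1) := by gcongr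
    _ = _ := by ring


/-- **the coefficients are Lipschitz in the first argument.** -/
theorem pairCoef_lip (m n r : ℕ) (hr : m + 1 ≤ r) : ∃ σ₀ C : ℝ, 0 < σ₀ ∧ 0 ≤ C ∧
    ∀ (f₁ f₁' f₂ : E m → E n) (ℓ : ℝ), 0 < ℓ → VIn (r + 2) f₁ → VIn (r + 2) f₁' →
      VIn (r + 2) f₂ → sAl (r + 1) ℓ f₁ ≤ ENNReal.ofReal σ₀ →
      sAl (r + 1) ℓ f₁' ≤ ENNReal.ofReal σ₀ → sAl (r + 1) ℓ f₂ ≤ ENNReal.ofReal σ₀ →
      ((pairCoef f₁ f₂).sub (pairCoef f₁' f₂)).sizel r ℓ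
        ≤ ENNReal.ofReal C * ((sAl (r + 1) ℓ f₁ + sAl (r + 1) ℓ f₁' + sAl (r + 1) ℓ f₂)
            * sAl (r + 1) ℓ (fun y => f₁ y - f₁' y)) := by
  obtain ⟨σ, hσ, hσ2, hinv⟩ := metric_inv m n r hr
  obtain ⟨A, hA⟩ : ∃ A : ℝ≥0∞, A = ENNReal.ofReal (4 * (m : ℝ) ^ 2 * n) := ⟨_, rfl⟩
  obtain ⟨P, hP⟩ : ∃ P : ℝ≥0∞, P = ENNReal.ofReal (2 * Real.pi) := ⟨_, rfl⟩
  have hAt : A ≠ ⊤ := by rw [hA]; exact ENNReal.ofReal_ne_top
  have hPt : P ≠ ⊤ := by rw [hP]; exact ENNReal.ofReal_ne_top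
  obtain ⟨K, hK⟩ : ∃ K : ℝ≥0∞, K = (m : ℝ≥0∞) ^ 2 * A
      + (m : ℝ≥0∞) ^ 3 * (n : ℝ≥0∞) ^ 2 * (P * (2 * (m : ℝ≥0∞) * (2 * A + 2) + 2 * A)) := ⟨_, rfl⟩
  have hKt : K ≠ ⊤ := by
    rw [hK]
    finiteness
  refine ⟨σ, K.toReal, hσ, ENNReal.toReal_nonneg, ?_⟩
  intro f₁ f₁' f₂ ℓ hℓ h₁ h₁' h₂ hS₁ hS₁' hS₂
  rw [ENNReal.ofReal_toReal hKt]
  have hσ1 : ENNReal.ofReal σ ≤ 1 := ENNReal.ofReal_le_one.2 (by linarith)
  have hmono : ∀ f : E m → E n, sAl r ℓ f ≤ sAl (r + 1) ℓ f :=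
    fun f => sAl_mono (Nat.le_succ r) hℓ.le f
  have hmul : ∀ f : E m → E n, VIn (r + 2) f → sAl (r + 1) ℓ f ≤ ENNReal.ofReal σ →
      ∀ a b, IsMul r ℓ (Gc f a b) 2 := by
    intro f hf hS a b
    have hs : sAl r ℓ f ≤ ENNReal.ofReal σ := (hmono f).trans hS
    obtain ⟨hY, hsum⟩ := hinv f ℓ hℓ (hf.mono (by omega)) hs
    refine isMul_Gc hℓ (hY a b) ?_
    have h1 : nAl r ℓ (Yc f a b) ≤ ∑ a, ∑ b, nAl r ℓ (Yc f a b) :=
      (Finset.single_le_sum (f := fun b => nAl r ℓ (Yc f a b)) (fun _ _ => zero_le)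
        (Finset.mem_univ b)).trans
        (Finset.single_le_sum (f := fun a => ∑ b, nAl r ℓ (Yc f a b)) (fun _ _ => zero_le)
          (Finset.mem_univ a))
    refine h1.trans (hsum.trans ?_)
    calc 2 * sAl r ℓ f ^ 2 ≤ 2 * (ENNReal.ofReal (1 / 2)) ^ 2 := by
          gcongr
          exact hs.trans (ENNReal.ofReal_le_ofReal hσ2)
      _ ≤ 1 := by
          rw [← ENNReal.ofReal_pow (by norm_num), show (2 : ℝ≥0∞) = ENNReal.ofReal 2 by simp,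
            ← ENNReal.ofReal_mul (by norm_num)]
          exact ENNReal.ofReal_le_one.2 (by norm_num)
  have hG₁ := hmul f₁ h₁ hS₁
  have hG₁' := hmul f₁' h₁' hS₁'
  have hG₂ := hmul f₂ h₂ hS₂
  have v₁ : VIn (r + 1) f₁ := h₁.mono (by omega)
  have v₁' : VIn (r + 1) f₁' := h₁'.mono (by omega)
  have v₂ : VIn (r + 1) f₂ := h₂.mono (by omega)
  have c₁ : ContDiff ℝ 1 f₁ := v₁.contDiff.of_le (by exact_mod_cast Nat.le_add_left 1 r)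
  have c₁' : ContDiff ℝ 1 f₁' := v₁'.contDiff.of_le (by exact_mod_cast Nat.le_add_left 1 r)
  have c₂ : ContDiff ℝ 2 f₂ := h₂.contDiff.of_le (by exact_mod_cast Nat.le_add_left 2 r)
  obtain ⟨S₁, hS₁d⟩ : ∃ S, S = sAl (r + 1) ℓ f₁ := ⟨_, rfl⟩
  obtain ⟨S₁', hS₁'d⟩ : ∃ S, S = sAl (r + 1) ℓ f₁' := ⟨_, rfl⟩
  obtain ⟨S₂, hS₂d⟩ : ∃ S, S = sAl (r + 1) ℓ f₂ := ⟨_, rfl⟩
  obtain ⟨Sd, hSdd⟩ : ∃ S, S = sAl (r + 1) ℓ (fun y => f₁ y - f₁' y) := ⟨_, rfl⟩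
  rw [← hS₁d, ← hS₁'d, ← hS₂d, ← hSdd]
  rw [← hS₁d] at hS₁
  rw [← hS₁'d] at hS₁'
  rw [← hS₂d] at hS₂
  -- differences of the inverse metrics
  have hΔG : ∀ a b, MwlB r ℓ (fun y => Gc f₁ a b y - Gc f₁' a b y) (A * ((S₁ + S₁') * Sd)) := by
    intro a b
    have h := Gc_sub_bound hℓ v₁ v₁' hG₁ hG₁' a b
    refine ⟨h.1, h.2.trans ?_⟩
    rw [hA, hS₁d, hS₁'d, hSdd]
    gcongr <;> exact hmono _
  have hΔT : ∀ γ c, MwlB r ℓ (fun y => Tc f₁ γ c y - Tc f₁' γ c y)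
      (∑ _b : Fin m, (A * ((S₁ + S₁') * Sd) * S₁ + 2 * Sd)) := by
    intro γ c
    have e : (fun y => Tc f₁ γ c y - Tc f₁' γ c y) = fun y => ∑ b,
        ((Gc f₁ c b y - Gc f₁' c b y) * Pc f₁ γ b y
          + Gc f₁' c b y * (Pc f₁ γ b y - Pc f₁' γ b y)) := by
      funext y
      simp only [Tc, ← Finset.sum_sub_distrib]
      exact Finset.sum_congr rfl fun b _ => by ring
    rw [e]
    refine MwlB.sum _ fun b _ => ?_
    exact ((hΔG c b).mul hℓ ((mwl_Pc ℓ v₁ γ b).mono (by rw [hS₁d]; exact hmono _))).add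
      ((hG₁' c b).mwlB ((mwl_Pc_sub_bd ℓ v₁ v₁' γ b).mono (by rw [hSdd]; exact hmono _)))
  obtain ⟨L, hLd⟩ : ∃ L : ℝ≥0∞, L = ENNReal.ofReal ℓ := ⟨_, rfl⟩
  have hL0 : L ≠ 0 := by rw [hLd]; exact (ENNReal.ofReal_pos.2 hℓ).ne'
  have hLt : L ≠ ⊤ := by rw [hLd]; exact ENNReal.ofReal_ne_top
  have hH : ∀ α c d, MwlB r ℓ (Hc f₂ α c d) (L⁻¹ * (P * S₂)) := by
    intro α c d
    refine ⟨InA_Hc h₂ α c d, ?_⟩
    have h := nAl_Hc_le r hℓ (h₂.mono (by omega)) α c d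
    rw [← hLd, ← hP, ← hS₂d] at h
    calc nAl r ℓ (Hc f₂ α c d) = L⁻¹ * (L * nAl r ℓ (Hc f₂ α c d)) := by
          rw [← mul_assoc, ENNReal.inv_mul_cancel hL0 hLt, one_mul]
      _ ≤ L⁻¹ * (P * S₂) := by gcongr
  have hT₂ : ∀ γ d, MwlB r ℓ (Tc f₂ γ d) (2 * S₂) := fun γ d =>
    ⟨(Tc_bound v₂ hG₂ γ d).1, (Tc_bound v₂ hG₂ γ d).2.trans (by
      rw [hS₂d]
      gcongr
      exact hmono _)⟩
  have hΔB : ∀ e α γ, MwlB r ℓ (cx (((pairCoef f₁ f₂).sub (pairCoef f₁' f₂)).B e α γ))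
      (∑ _c : Fin m, ∑ _d : Fin m,
          2 * ((∑ _b : Fin m, (A * ((S₁ + S₁') * Sd) * S₁ + 2 * Sd)) * (L⁻¹ * (P * S₂)))
        + ∑ _c : Fin m, ∑ _d : Fin m,
          A * ((S₁ + S₁') * Sd) * (2 * S₂ * (L⁻¹ * (P * S₂)))) := by
    intro e α γ
    have e1 : cx (((pairCoef f₁ f₂).sub (pairCoef f₁' f₂)).B e α γ) = fun y =>
        (- ∑ c, ∑ d, Gc f₂ d e y * ((Tc f₁ γ c y - Tc f₁' γ c y) * Hc f₂ α c d y))
        + (- ∑ c, ∑ d, (Gc f₁ c e y - Gc f₁' c e y) * (Tc f₂ γ d y * Hc f₂ α c d y)) := by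
      funext y
      have hB1 := cx_pairCoef_B c₁ c₂ e α γ y
      have hB2 := cx_pairCoef_B c₁' c₂ e α γ y
      have h3 : cx (((pairCoef f₁ f₂).sub (pairCoef f₁' f₂)).B e α γ) y
          = cx ((pairCoef f₁ f₂).B e α γ) y - cx ((pairCoef f₁' f₂).B e α γ) y := by
        simp [Coef.sub, cx]
      rw [h3, hB1, hB2]
      simp only [← Finset.sum_neg_distrib, ← Finset.sum_sub_distrib, ← Finset.sum_add_distrib]
      exact Finset.sum_congr rfl fun c _ => Finset.sum_congr rfl fun d _ => by ring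
    rw [e1]
    refine MwlB.add (MwlB.neg ?_) (MwlB.neg ?_)
    · exact MwlB.sum _ fun c _ => MwlB.sum _ fun d _ =>
        (hG₂ d e).mwlB ((hΔT γ c).mul hℓ (hH α c d))
    · exact MwlB.sum _ fun c _ => MwlB.sum _ fun d _ =>
        (hΔG c e).mul hℓ ((hT₂ γ d).mul hℓ (hH α c d))
  have hY : ∀ a b, cx (((pairCoef f₁ f₂).sub (pairCoef f₁' f₂)).Y a b)
      = fun y => Gc f₁ a b y - Gc f₁' a b y := by
    intro a b
    funext y
    have h3 : cx (((pairCoef f₁ f₂).sub (pairCoef f₁' f₂)).Y a b) y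
        = cx ((pairCoef f₁ f₂).Y a b) y - cx ((pairCoef f₁' f₂).Y a b) y := by
      simp [Coef.sub, cx]
    rw [h3, cx_pairCoef_Y, cx_pairCoef_Y]
    simp only [Yc]
    ring
  have hLL : L * L⁻¹ = 1 := ENNReal.mul_inv_cancel hL0 hLt
  unfold Coef.sizel
  rw [← hLd]
  calc ∑ a, ∑ b, nAl r ℓ (cx (((pairCoef f₁ f₂).sub (pairCoef f₁' f₂)).Y a b))
        + L * ∑ e, ∑ α, ∑ γ, nAl r ℓ (cx (((pairCoef f₁ f₂).sub (pairCoef f₁' f₂)).B e α γ))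
      ≤ ∑ _a : Fin m, ∑ _b : Fin m, A * ((S₁ + S₁') * Sd)
        + L * ∑ _e : Fin m, ∑ _α : Fin n, ∑ _γ : Fin n, (∑ _c : Fin m, ∑ _d : Fin m,
          2 * ((∑ _b : Fin m, (A * ((S₁ + S₁') * Sd) * S₁ + 2 * Sd)) * (L⁻¹ * (P * S₂)))
        + ∑ _c : Fin m, ∑ _d : Fin m,
          A * ((S₁ + S₁') * Sd) * (2 * S₂ * (L⁻¹ * (P * S₂)))) := by
        refine add_le_add (Finset.sum_le_sum fun a _ => Finset.sum_le_sum fun b _ => ?_)
          (mul_le_mul' le_rfl (Finset.sum_le_sum fun e _ => Finset.sum_le_sum fun α _ =>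
            Finset.sum_le_sum fun γ _ => (hΔB e α γ).2))
        rw [hY]
        exact (hΔG a b).2
    _ = (m : ℝ≥0∞) * (m * (A * ((S₁ + S₁') * Sd)))
        + (L * L⁻¹) * ((m : ℝ≥0∞) * (n * (n * (m * (m * (2 * (m * (A * ((S₁ + S₁') * Sd) * S₁ + 2 * Sd))))
          + m * (m * (A * ((S₁ + S₁') * Sd) * (2 * S₂)))))) * (P * S₂)) := by
        simp only [Finset.sum_const, Finset.card_univ, Fintype.card_fin, nsmul_eq_mul]
        ring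
    _ ≤ K * ((S₁ + S₁' + S₂) * Sd) := by
        rw [hLL, one_mul, hK]
        exact mwl_final A P m n S₁ S₁' S₂ Sd (hS₁.trans hσ1) (hS₁'.trans hσ1) (hS₂.trans hσ1)

/-! ### the Newton remainder -/

/-- **Newton step**: the remainder is quadratic in the slopes of `v`, and it is a GLOBAL element of `A^r`. -/
theorem newton (m n r : ℕ) (hr : m + 1 ≤ r) : ∃ σ₀ C : ℝ, 0 < σ₀ ∧ 0 ≤ C ∧
    ∀ (u v : E m → E n) (ℓ : ℝ), 0 < ℓ → VIn (r + 2) u → VIn (r + 2) v →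
      sAl (r + 1) ℓ u ≤ ENNReal.ofReal σ₀ → sAl (r + 1) ℓ v ≤ ENNReal.ofReal σ₀ →
      ∃ Q : E m → E n, VIn r Q ∧
        (∀ y, mssOp (fun y => u y + v y) y = mssOp u y + (pairCoef u u).op v y + Q y) ∧
        ENNReal.ofReal ℓ * vAl r ℓ Q
          ≤ ENNReal.ofReal C * ((sAl (r + 1) ℓ u + sAl (r + 1) ℓ v) * (sAl (r + 1) ℓ v) ^ 2) := by
  obtain ⟨σ₁, C₁, hσ₁, -, hsmall⟩ := pairCoef_small m n r hr
  obtain ⟨σ₂, C₂, hσ₂, hC₂, hlip⟩ := pairCoef_lip m n r hr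
  have hσ : 0 < min σ₁ σ₂ := lt_min hσ₁ hσ₂
  refine ⟨min σ₁ σ₂ / 2, 2 * Real.pi * (C₂ * 3), by positivity, by positivity, ?_⟩
  intro u v ℓ hℓ hu hv hSu hSv
  have huv : VIn (r + 2) (fun y => u y + v y) := hu.add hv
  have h1 : ∀ {w : E m → E n}, VIn (r + 2) w → VIn 1 w := fun h => h.mono (by omega)
  have hSuv : sAl (r + 1) ℓ (fun y => u y + v y) ≤ sAl (r + 1) ℓ u + sAl (r + 1) ℓ v :=
    sAl_add_le (r + 1) ℓ (h1 hu) (h1 hv)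
  have hSuv' : sAl (r + 1) ℓ (fun y => u y + v y) ≤ ENNReal.ofReal (min σ₁ σ₂) := by
    refine hSuv.trans ((add_le_add hSu hSv).trans (le_of_eq ?_))
    rw [← ENNReal.ofReal_add (by positivity) (by positivity), add_halves]
  have hhalf : ENNReal.ofReal (min σ₁ σ₂ / 2) ≤ ENNReal.ofReal (min σ₁ σ₂) :=
    ENNReal.ofReal_le_ofReal (by linarith)
  have hm1 : ENNReal.ofReal (min σ₁ σ₂) ≤ ENNReal.ofReal σ₁ :=
    ENNReal.ofReal_le_ofReal (min_le_left _ _)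
  have hm2 : ENNReal.ofReal (min σ₁ σ₂) ≤ ENNReal.ofReal σ₂ :=
    ENNReal.ofReal_le_ofReal (min_le_right _ _)
  have hreg1 := (hsmall _ u ℓ hℓ huv hu (hSuv'.trans hm1) ((hSu.trans hhalf).trans hm1)).1
  have hreg2 := (hsmall u u ℓ hℓ hu hu ((hSu.trans hhalf).trans hm1)
    ((hSu.trans hhalf).trans hm1)).1
  have hpb := Coef.pert_bound _ r hℓ (hreg1.sub hreg2) hv
  have hvv : (fun y => u y + v y - u y) = v := by
    funext y
    abel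
  have hl := hlip _ u u ℓ hℓ huv hu hu (hSuv'.trans hm2) ((hSu.trans hhalf).trans hm2)
    ((hSu.trans hhalf).trans hm2)
  rw [hvv] at hl
  refine ⟨_, hpb.1, ?_, ?_⟩
  · intro y
    have h2 := mssOp_sub (huv.contDiff.of_le (by exact_mod_cast Nat.le_add_left 2 r))
      (hu.contDiff.of_le (by exact_mod_cast Nat.le_add_left 2 r)) y
    rw [hvv] at h2
    rw [← Coef.op_sub_op, ← h2]
    abel
  · refine hpb.2.trans ?_
    set Su := sAl (r + 1) ℓ u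
    set Sv := sAl (r + 1) ℓ v
    have h3 : sAl (r + 1) ℓ (fun y => u y + v y) + Su + Su ≤ 3 * (Su + Sv) := by
      calc sAl (r + 1) ℓ (fun y => u y + v y) + Su + Su ≤ (Su + Sv) + Su + Su := by gcongr
        _ ≤ (Su + Sv) + (Su + Sv) + (Su + Sv) := by gcongr <;> exact le_self_add
        _ = 3 * (Su + Sv) := by ring
    have h33 : ENNReal.ofReal (2 * Real.pi * (C₂ * 3))
        = ENNReal.ofReal (2 * Real.pi) * (ENNReal.ofReal C₂ * 3) := by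
      rw [ENNReal.ofReal_mul (by positivity), ENNReal.ofReal_mul hC₂]
      simp
    rw [h33]
    calc ENNReal.ofReal (2 * Real.pi) * (((pairCoef (fun y => u y + v y) u).sub
            (pairCoef u u)).sizel r ℓ * Sv)
        ≤ ENNReal.ofReal (2 * Real.pi) * ((ENNReal.ofReal C₂ * ((3 * (Su + Sv)) * Sv)) * Sv) := by
          gcongr
          exact hl.trans (by gcongr)
      _ = _ := by ring

/-- `mssOp f` is a global element of `A^r`, of the size of the slopes. -/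
theorem mssOp_bound (m n r : ℕ) (hr : m + 1 ≤ r) : ∃ σ₀ C : ℝ, 0 < σ₀ ∧ 0 ≤ C ∧
    ∀ (f : E m → E n) (ℓ : ℝ), 0 < ℓ → VIn (r + 2) f → sAl (r + 1) ℓ f ≤ ENNReal.ofReal σ₀ →
      VIn r (mssOp f) ∧
        ENNReal.ofReal ℓ * vAl r ℓ (mssOp f) ≤ ENNReal.ofReal C * sAl (r + 1) ℓ f := by
  obtain ⟨σ₁, C₁, hσ₁, hC₁, hsmall⟩ := pairCoef_small m n r hr
  refine ⟨σ₁, 2 * Real.pi * (1 + C₁ * σ₁ ^ 2), hσ₁, by positivity, ?_⟩
  intro f ℓ hℓ hf hS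
  have h0 : VIn (r + 2) (fun _ : E m => (0 : E n)) := VIn.zero _
  have hs := hsmall f (fun _ => 0) ℓ hℓ hf h0 hS (by rw [sAl_zero_fun]; exact zero_le)
  rw [sAl_zero_fun, add_zero] at hs
  set c := pairCoef f (fun _ : E m => (0 : E n)) with hc
  have heq : mssOp f = c.op f := by
    funext y
    have h2 := mssOp_sub (hf.contDiff.of_le (by exact_mod_cast Nat.le_add_left 2 r))
      (h0.contDiff.of_le (by exact_mod_cast Nat.le_add_left 2 r)) y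
    rw [mssOp_zero, sub_zero] at h2
    simpa using h2
  have hpb := Coef.pert_bound c r hℓ hs.1 hf
  have hD : ∀ a : Fin m, VIn r (pdv a (pdv a f)) := fun a =>
    (VIn.pdv (r := r + 1) hf a).pdv a
  have heq2 : c.op f = fun y => (∑ a, pdv a (pdv a f) y) + c.pert f y := by
    funext y
    exact Coef.op_eq c f y
  rw [heq, heq2]
  have hsum : VIn r (fun y => ∑ a, pdv a (pdv a f) y) := VIn.sum _ fun a _ => hD a
  refine ⟨hsum.add hpb.1, ?_⟩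
  set S := sAl (r + 1) ℓ f with hSdef
  have h3 : ENNReal.ofReal ℓ * vAl r ℓ (fun y => ∑ a, pdv a (pdv a f) y)
      ≤ ENNReal.ofReal (2 * Real.pi) * S := by
    refine (mul_le_mul' le_rfl (vAl_sum_le r ℓ _ fun a _ => (hD a).mono (Nat.zero_le _))).trans ?_
    rw [Finset.mul_sum, hSdef, sAl, Finset.mul_sum]
    exact Finset.sum_le_sum fun a _ => vAl_pdv_pdv_le r hℓ (hf.mono (by omega)) a a
  have h4 : c.sizel r ℓ ≤ ENNReal.ofReal (C₁ * σ₁ ^ 2) := by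
    refine hs.2.trans ?_
    rw [ENNReal.ofReal_mul hC₁, ENNReal.ofReal_pow hσ₁.le]
    gcongr
  calc ENNReal.ofReal ℓ * vAl r ℓ (fun y => (∑ a, pdv a (pdv a f) y) + c.pert f y)
      ≤ ENNReal.ofReal ℓ * (vAl r ℓ (fun y => ∑ a, pdv a (pdv a f) y) + vAl r ℓ (c.pert f)) := by
        gcongr
        exact vAl_add_le r ℓ (hsum.mono (Nat.zero_le _)) (hpb.1.mono (Nat.zero_le _))
    _ = ENNReal.ofReal ℓ * vAl r ℓ (fun y => ∑ a, pdv a (pdv a f) y)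
          + ENNReal.ofReal ℓ * vAl r ℓ (c.pert f) := mul_add _ _ _
    _ ≤ ENNReal.ofReal (2 * Real.pi) * S
          + ENNReal.ofReal (2 * Real.pi) * (ENNReal.ofReal (C₁ * σ₁ ^ 2) * S) := by
        refine add_le_add h3 (hpb.2.trans ?_)
        gcongr
    _ = ENNReal.ofReal (2 * Real.pi * (1 + C₁ * σ₁ ^ 2)) * S := by
        rw [ENNReal.ofReal_mul (by positivity : (0:ℝ) ≤ 2 * Real.pi),
          ENNReal.ofReal_add zero_le_one (by positivity), ENNReal.ofReal_one]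
        ring

end Claimed.Agent.R322.Fit
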